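import Crest.Agent.X212.Dsc4.St
import Crest.Agent.X212.Lad50.PL

/-!
# X212 / T layer, descent step: chart calculus (helper4)
-/

set_option autoImplicit false
set_option linter.unusedSectionVars false

open Set Metric Topology Filter

namespace Crest.Agent.X212.Dsc4

open Crest.Agent.R096.Ce_537
open Crest.Agent.X212.Prd34 (V up)
open Crest.Agent.X212.Lad50

section ROpen

variable {X Y : Type*} [TopologicalSpace X] [TopologicalSpace Y] {W O O' : Set X}

theorem ROpen.sub (h : ROpen W O) : O ⊆ W := by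
  obtain ⟨A, -, rfl⟩ := h; exact inter_subset_right

theorem ROpen.mem (h : ROpen W O) {x : X} (hx : x ∈ O) : O ∈ 𝓝[W] x := by
  obtain ⟨A, hA, rfl⟩ := h
  exact mem_nhdsWithin.2 ⟨A, hA, hx.1, Subset.rfl⟩

theorem rOpen_of (h1 : O ⊆ W) (h2 : ∀ x ∈ O, O ∈ 𝓝[W] x) : ROpen W O := by
  choose! A hA hxA hs using fun x hx => mem_nhdsWithin.1 (h2 x hx)
  refine ⟨⋃ x ∈ O, A x, isOpen_biUnion hA, ?_⟩
  ext y
  constructor
  · intro hy
    exact ⟨mem_biUnion hy (hxA y hy), h1 hy⟩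
  · rintro ⟨hy, hW⟩
    obtain ⟨x, hx, hyx⟩ := mem_iUnion₂.1 hy
    exact hs x hx ⟨hyx, hW⟩

theorem rOpen_self (W : Set X) : ROpen W W := ⟨univ, isOpen_univ, by simp⟩

theorem IsOpen.rOpen {A : Set X} (h : IsOpen A) (W : Set X) : ROpen W (A ∩ W) := ⟨A, h, rfl⟩

theorem ROpen.inter (h : ROpen W O) (h' : ROpen W O') : ROpen W (O ∩ O') :=
  rOpen_of (inter_subset_left.trans h.sub) fun _ hx => inter_mem (h.mem hx.1) (h'.mem hx.2)

theorem ROpen.union (h : ROpen W O) (h' : ROpen W O') : ROpen W (O ∪ O') :=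
  rOpen_of (union_subset h.sub h'.sub) fun _ hx => hx.elim
    (fun h1 => mem_of_superset (h.mem h1) subset_union_left)
    (fun h1 => mem_of_superset (h'.mem h1) subset_union_right)

theorem ROpen.inter_open (h : ROpen W O) {A : Set X} (hA : IsOpen A) : ROpen W (O ∩ A) :=
  rOpen_of (inter_subset_left.trans h.sub) fun _ hx =>
    inter_mem (h.mem hx.1) (mem_nhdsWithin_of_mem_nhds (hA.mem_nhds hx.2))

theorem ROpen.nhdsWithin_eq (h : ROpen W O) {x : X} (hx : x ∈ O) : 𝓝[O] x = 𝓝[W] x := by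
  refine le_antisymm (nhdsWithin_mono _ h.sub) ?_
  exact nhdsWithin_le_of_mem (h.mem hx)

theorem ROpen.trans (h : ROpen W O) (h' : ROpen O O') : ROpen W O' :=
  rOpen_of (h'.sub.trans h.sub) fun _ hx => by
    rw [← h.nhdsWithin_eq (h'.sub hx)]; exact h'.mem hx

theorem ROpen.of_sub (h : ROpen W O') (h1 : O' ⊆ O) (h2 : O ⊆ W) : ROpen O O' :=
  rOpen_of h1 fun _ hx => nhdsWithin_mono _ h2 (h.mem hx)

theorem ROpen.sep (h : ROpen W O) {f : X → Y} (hf : ContinuousOn f O) {A : Set Y} (hA : IsOpen A) :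
    ROpen W {x | x ∈ O ∧ f x ∈ A} := by
  refine rOpen_of (fun _ hx => h.sub hx.1) fun x hx => ?_
  rw [← h.nhdsWithin_eq hx.1]
  filter_upwards [self_mem_nhdsWithin, hf x hx.1 (hA.mem_nhds hx.2)] with y h1 h2
  exact ⟨h1, h2⟩

theorem ROpen.preim (h : ROpen W O) {f : X → Y} (hf : ContinuousOn f O) {Z B : Set Y}
    (hm : MapsTo f O Z) (hB : ROpen Z B) : ROpen W {x | x ∈ O ∧ f x ∈ B} := by
  obtain ⟨A, hA, rfl⟩ := hB
  have : {x | x ∈ O ∧ f x ∈ A ∩ Z} = {x | x ∈ O ∧ f x ∈ A} := by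
    ext x; exact ⟨fun h => ⟨h.1, h.2.1⟩, fun h => ⟨h.1, h.2, hm h.1⟩⟩
  rw [this]; exact h.sep hf hA

/-- a neighbourhood within contains a relatively open one -/
theorem exists_rOpen {x : X} (hx : x ∈ W) {A : Set X} (hA : A ∈ 𝓝[W] x) :
    ∃ O, ROpen W O ∧ x ∈ O ∧ O ⊆ A := by
  obtain ⟨B, hB, hxB, hs⟩ := mem_nhdsWithin.1 hA
  exact ⟨B ∩ W, ⟨B, hB, rfl⟩, ⟨hxB, hx⟩, hs⟩

end ROpen

variable {E : Type} [NormedAddCommGroup E] [NormedSpace ℝ E] {W dW : Set E}

namespace Ch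

theorem sub (k : Ch W dW) : k.O ⊆ W := k.opn.sub

theorem cont (k : Ch W dW) : ContinuousOn k.e.f k.O := k.e.pf.1

theorem cont' (k : Ch W dW) : ContinuousOn k.e.g k.O' := k.e.pg.1

theorem nonneg (k : Ch W dW) {x : E} (hx : x ∈ k.O) : 0 ≤ k.e.f x 2 := k.opn'.sub (k.e.mf hx)

theorem contc (k : Ch W dW) (i : Fin 3) : ContinuousOn (fun x => k.e.f x i) k.O :=
  (continuous_apply i).comp_continuousOn k.cont

/-- restriction to a relatively open set -/
noncomputable def restr (k : Ch W dW) (A : Set E) (hA : ROpen W A) : Ch W dW where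
  O := k.O ∩ A
  O' := {y | y ∈ k.O' ∧ k.e.g y ∈ A}
  e := k.e.restr inter_subset_left (fun _ h => h.1)
    (fun x hx => ⟨k.e.mf hx.1, by rw [k.e.li x hx.1]; exact hx.2⟩)
    (fun y hy => ⟨k.e.mg hy.1, hy.2⟩)
  opn := k.opn.inter hA
  opn' := k.opn'.preim k.cont' (fun _ h => k.sub (k.e.mg h)) hA
  bd := fun x hx => k.bd x hx.1

@[simp] theorem restr_O (k : Ch W dW) (A : Set E) (hA : ROpen W A) : (k.restr A hA).O = k.O ∩ A :=
  rfl

@[simp] theorem restr_f (k : Ch W dW) (A : Set E) (hA : ROpen W A) :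
    (k.restr A hA).e.f = k.e.f := rfl

/-- post-composition with a PL homeomorphism of `V` which fixes the last coordinate -/
noncomputable def post (k : Ch W dW) (H : PLEquiv (univ : Set V) (univ : Set V)) (h2 : ∀ y, H.f y 2 = y 2) :
    Ch W dW where
  O := k.O
  O' := {y | y ∈ up ∧ H.g y ∈ k.O'}
  e := k.e.trans (H.restr (subset_univ _) (subset_univ _)
    (fun y hy => ⟨by
        show 0 ≤ H.f y 2
        rw [h2]; exact k.opn'.sub hy, by rw [H.li y trivial]; exact hy⟩)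
    (fun _ hy => hy.2))
  opn := k.opn
  opn' := (rOpen_self up).preim (H.pg.1.mono (subset_univ _)) (fun y hy => by
    show 0 ≤ H.g y 2
    rw [← h2 (H.g y), H.ri y trivial]; exact hy) k.opn'
  bd := fun x hx => by
    show x ∈ dW ↔ H.f (k.e.f x) 2 = 0
    rw [h2]; exact k.bd x hx

@[simp] theorem post_O (k : Ch W dW) (H : PLEquiv (univ : Set V) (univ : Set V))
    (h2 : ∀ y, H.f y 2 = y 2) : (k.post H h2).O = k.O := rfl

@[simp] theorem post_f (k : Ch W dW) (H : PLEquiv (univ : Set V) (univ : Set V))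
    (h2 : ∀ y, H.f y 2 = y 2) (x : E) : (k.post H h2).e.f x = H.f (k.e.f x) := rfl

/-- post-composition with any PL homeomorphism of `V`, away from the boundary -/
noncomputable def post' (k : Ch W dW) (H : PLEquiv (univ : Set V) (univ : Set V)) : Ch W dW where
  O := {x | x ∈ k.O ∧ 0 < k.e.f x 2 ∧ 0 < H.f (k.e.f x) 2}
  O' := {y | 0 < y 2 ∧ H.g y ∈ k.O' ∧ 0 < H.g y 2}
  e := (k.e.restr (A' := {x | x ∈ k.O ∧ 0 < k.e.f x 2 ∧ 0 < H.f (k.e.f x) 2})
    (B' := {y | y ∈ k.O' ∧ 0 < y 2 ∧ 0 < H.f y 2}) (fun _ h => h.1) (fun _ h => h.1)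
    (fun x hx => ⟨k.e.mf hx.1, hx.2⟩)
    (fun y hy => ⟨k.e.mg hy.1, by rw [k.e.ri y hy.1]; exact hy.2⟩)).trans
    (H.restr (subset_univ _) (subset_univ _)
      (fun y hy => ⟨hy.2.2, by rw [H.li y trivial]; exact ⟨hy.1, hy.2.1⟩⟩)
      (fun y hy => ⟨hy.2.1, hy.2.2, by rw [H.ri y trivial]; exact hy.1⟩))
  opn := by
    have hH : Continuous H.f := continuousOn_univ.1 H.pf.1
    exact k.opn.sep k.cont (A := {y : V | 0 < y 2 ∧ 0 < H.f y 2})
      ((isOpen_lt continuous_const (continuous_apply 2)).inter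
        (isOpen_lt continuous_const ((continuous_apply 2).comp hH)))
  opn' := by
    have hH : Continuous H.g := continuousOn_univ.1 H.pg.1
    obtain ⟨A, hA, e⟩ := k.opn'
    refine ⟨{y | 0 < y 2 ∧ H.g y ∈ A ∧ 0 < H.g y 2},
      (isOpen_lt continuous_const (continuous_apply 2)).inter ((hA.preimage hH).inter
        (isOpen_lt continuous_const ((continuous_apply 2).comp hH))), ?_⟩
    ext y
    rw [e]
    exact ⟨fun h => ⟨⟨h.1, h.2.1.1, h.2.2⟩, h.1.le⟩, fun h => ⟨h.1.1, ⟨h.1.2.1, h.1.2.2.le⟩, h.1.2.2⟩⟩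
  bd := fun x hx => by
    show x ∈ dW ↔ H.f (k.e.f x) 2 = 0
    rw [k.bd x hx.1]
    exact ⟨fun h => absurd h hx.2.1.ne', fun h => absurd h hx.2.2.ne'⟩

theorem post'_O (k : Ch W dW) (H : PLEquiv (univ : Set V) (univ : Set V)) :
    (k.post' H).O = {x | x ∈ k.O ∧ 0 < k.e.f x 2 ∧ 0 < H.f (k.e.f x) 2} := rfl

@[simp] theorem post'_f (k : Ch W dW) (H : PLEquiv (univ : Set V) (univ : Set V)) (x : E) :
    (k.post' H).e.f x = H.f (k.e.f x) := rfl

/-- transport along a PL involution -/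
noncomputable def tr (k : Ch W dW) (t : E → E) (pl : PLOn t W) (maps : MapsTo t W W)
    (inv : ∀ x ∈ W, t (t x) = x) (bd : MapsTo t dW dW) : Ch W dW where
  O := {x | x ∈ W ∧ t x ∈ k.O}
  O' := k.O'
  e := (PLEquiv.mk (A := {x | x ∈ W ∧ t x ∈ k.O}) (B := k.O) t t (pl.mono fun _ h => h.1)
    (pl.mono k.sub) (fun _ h => h.2)
    (fun y hy => ⟨maps (k.sub hy), by rw [inv y (k.sub hy)]; exact hy⟩) (fun x hx => inv x hx.1)
    (fun y hy => inv y (k.sub hy))).trans k.e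
  opn := (rOpen_self W).preim pl.1 maps k.opn
  opn' := k.opn'
  bd := fun x hx => by
    show x ∈ dW ↔ k.e.f (t x) 2 = 0
    rw [← k.bd _ hx.2]
    exact ⟨fun h => bd h, fun h => by rw [← inv x hx.1]; exact bd h⟩

theorem tr_O (k : Ch W dW) (t : E → E) (pl : PLOn t W) (maps : MapsTo t W W)
    (inv : ∀ x ∈ W, t (t x) = x) (bd : MapsTo t dW dW) :
    (k.tr t pl maps inv bd).O = {x | x ∈ W ∧ t x ∈ k.O} := rfl

@[simp] theorem tr_f (k : Ch W dW) (t : E → E) (pl : PLOn t W) (maps : MapsTo t W W)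
    (inv : ∀ x ∈ W, t (t x) = x) (bd : MapsTo t dW dW) (x : E) :
    (k.tr t pl maps inv bd).e.f x = k.e.f (t x) := rfl

/-- small boxes of a chart -/
theorem exists_box (k : Ch W dW) {x : E} (hx : x ∈ k.O) {A : Set E} (hA : A ∈ 𝓝[W] x) :
    ∃ r > 0, ∀ y ∈ closedBall (k.e.f x) r ∩ up, y ∈ k.O' ∧ k.e.g y ∈ A := by
  have h1 : k.O' ∈ 𝓝[up] (k.e.f x) := k.opn'.mem (k.e.mf hx)
  have h2 : Tendsto k.e.g (𝓝[k.O'] (k.e.f x)) (𝓝[W] x) := by
    have := (k.cont' _ (k.e.mf hx)).tendsto_nhdsWithin (fun y hy => k.sub (k.e.mg hy))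
    rwa [k.e.li x hx] at this
  rw [k.opn'.nhdsWithin_eq (k.e.mf hx)] at h2
  obtain ⟨r, hr, hs⟩ := Metric.mem_nhdsWithin_iff.1 (inter_mem h1 (h2 hA))
  exact ⟨r / 2, by positivity, fun y hy =>
    hs ⟨closedBall_subset_ball (by linarith) hy.1, hy.2⟩⟩

/-- the open box as a relatively open set -/
theorem rOpen_box (k : Ch W dW) (z : V) (r : ℝ) : ROpen W {x | x ∈ k.O ∧ k.e.f x ∈ ball z r} :=
  k.opn.sep k.cont isOpen_ball

end Ch

/-! ### planar moves -/

/-- `(y0, y1, y2) ↦ (s y0 - a, s' y1 - b, y2)` -/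
noncomputable def affH (s s' a b : ℝ) (hs : s * s = 1) (hs' : s' * s' = 1) :
    PLEquiv (univ : Set V) (univ : Set V) where
  f := fun y => ![s * y 0 - a, s' * y 1 - b, y 2]
  g := fun y => ![s * (y 0 + a), s' * (y 1 + b), y 2]
  pf := pl_vec3 (pl_sub (pl_mul _ (pl_coord 0 _)) (plOn_const _ _))
    (pl_sub (pl_mul _ (pl_coord 1 _)) (plOn_const _ _)) (pl_coord 2 _)
  pg := pl_vec3 (pl_mul _ (pl_add (pl_coord 0 _) (plOn_const _ _)))
    (pl_mul _ (pl_add (pl_coord 1 _) (plOn_const _ _))) (pl_coord 2 _)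
  mf := fun _ _ => trivial
  mg := fun _ _ => trivial
  li := fun y _ => by
    ext i; fin_cases i
    · simp [← mul_assoc, hs]
    · simp [← mul_assoc, hs']
    · simp
  ri := fun y _ => by
    ext i; fin_cases i
    · simp [← mul_assoc, hs]
    · simp [← mul_assoc, hs']
    · simp

/-- `(y0, y1, y2) ↦ (min y0 y1, y0 - y1, y2)` -/
noncomputable def minH : PLEquiv (univ : Set V) (univ : Set V) where
  f := fun y => ![min (y 0) (y 1), y 0 - y 1, y 2]
  g := fun y => ![y 0 + max (y 1) 0, y 0 + max (-y 1) 0, y 2]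
  pf := pl_vec3 (pl_min (pl_coord 0 _) (pl_coord 1 _)) (pl_sub (pl_coord 0 _) (pl_coord 1 _))
    (pl_coord 2 _)
  pg := pl_vec3 (pl_add (pl_coord 0 _) (pl_max (pl_coord 1 _) (plOn_const _ _)))
    (pl_add (pl_coord 0 _) (pl_max (pl_neg (pl_coord 1 _)) (plOn_const _ _))) (pl_coord 2 _)
  mf := fun _ _ => trivial
  mg := fun _ _ => trivial
  li := fun y _ => by
    ext i; fin_cases i
    · rcases le_total (y 0) (y 1) with h | h <;> simp [h]
    · rcases le_total (y 0) (y 1) with h | h <;> simp [h]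
    · simp
  ri := fun y _ => by
    ext i; fin_cases i
    · rcases le_total (y 1) 0 with h | h <;> simp [h]
    · rcases le_total (y 1) 0 with h | h <;> simp [h]
    · simp

/-- exchange of the first two coordinates -/
noncomputable def swpH : PLEquiv (univ : Set V) (univ : Set V) where
  f := fun y => ![y 1, y 0, y 2]
  g := fun y => ![y 1, y 0, y 2]
  pf := pl_vec3 (pl_coord 1 _) (pl_coord 0 _) (pl_coord 2 _)
  pg := pl_vec3 (pl_coord 1 _) (pl_coord 0 _) (pl_coord 2 _)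
  mf := fun _ _ => trivial
  mg := fun _ _ => trivial
  li := fun y _ => by ext i; fin_cases i <;> simp
  ri := fun y _ => by ext i; fin_cases i <;> simp

/-! ### families -/

section Fam

variable {Γ : Type} [Group Γ] {G : Set E} {c : E → E → Γ} {U : Set E} {l : E → ℝ} {η : ℝ}

theorem Fam.rOpen (h : Fam W dW G c U l η) : ROpen W U := by
  refine rOpen_of (fun x hx => ?_) fun x hx => ?_
  · obtain ⟨k, h1, -⟩ := h.ch x hx; exact k.sub h1
  · obtain ⟨k, h1, h2, -⟩ := h.ch x hx; exact mem_of_superset (k.opn.mem h1) h2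

theorem Fam.sub (h : Fam W dW G c U l η) : U ⊆ W := h.rOpen.sub

theorem Fam.cont (h : Fam W dW G c U l η) : ContinuousOn l U := by
  intro x hx
  obtain ⟨k, h1, h2, h3⟩ := h.ch x hx
  have h4 : ContinuousWithinAt l k.O x := ((k.contc 0).congr fun y hy => (h3 y hy).symm) x h1
  exact h4.mono_of_mem_nhdsWithin (nhdsWithin_mono _ h.sub (k.opn.mem h1))

theorem Fam.memG (h : Fam W dW G c U l η) {x : E} (hx : x ∈ U) (hl : |l x| < η) (hd : x ∈ dW) :
    x ∈ G := (h.ess (l x) hl).2.2.1 ⟨⟨hx, rfl⟩, hd⟩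

end Fam

end Crest.Agent.X212.Dsc4
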