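import Crest.Agent.X212.Dsc4.New

/-!
# X212 / T layer, descent step: the double set of the pasted family (helper4)
-/

set_option autoImplicit false
set_option linter.unusedSectionVars false

open Set Metric Topology Filter

namespace Crest.Agent.X212.Dsc4

open Crest.Agent.R096 Crest.Agent.R096.Ce_537 Crest.Agent.R096.Cb_609
open Crest.Agent.X212.Prd34 (V up)
open Crest.Agent.X212.Lev33 (Coc Prim)

theorem cpt_diff {X : Type*} [TopologicalSpace X] {W F A : Set X} (hF : IsCompact F) (hW : F ⊆ W)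
    (hA : ROpen W A) : IsCompact (F \ A) := by
  obtain ⟨B, hB, rfl⟩ := hA
  have : F \ (B ∩ W) = F \ B := by
    ext x; exact ⟨fun h => ⟨h.1, fun e => h.2 ⟨e, hW h.1⟩⟩, fun h => ⟨h.1, fun e => h.2 e.1⟩⟩
  rw [this]; exact hF.diff hB

theorem rOpen_ex {X ι : Type*} [TopologicalSpace X] {W : Set X} {p : ι → Prop} {O : ι → Set X}
    (h : ∀ i, p i → ROpen W (O i)) : ROpen W {x | ∃ i, p i ∧ x ∈ O i} :=
  rOpen_of (fun _ ⟨i, h1, h2⟩ => (h i h1).sub h2) fun _ ⟨i, h1, h2⟩ =>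
    mem_of_superset ((h i h1).mem h2) fun _ hy => ⟨i, h1, hy⟩

theorem pre_gt {X : Type*} [TopologicalSpace X] {T : Set X} (hT : IsPreconnected T) {f : X → ℝ}
    (hf : ContinuousOn f T) {b : ℝ} (hb : ∀ y ∈ T, f y ≠ b) {x : X} (hx : x ∈ T) (h : b < f x) :
    ∀ y ∈ T, b < f y := by
  intro y hy
  by_contra h1
  obtain ⟨z, hz, h2⟩ := hT.intermediate_value hy hx hf ⟨not_lt.1 h1, h.le⟩
  exact hb z hz h2

variable {E : Type} [NormedAddCommGroup E] [NormedSpace ℝ E] {W dW : Set E}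
  {Γ : Type} [Group Γ] {G : Set E} {c : E → E → Γ} {U N : Set E} {l l₁ m₁ μ lam : E → ℝ}
  {ε η a b κ s s' : ℝ} {t : E → E} {n : ℕ}

/-- neighbourhoods of the other double curves -/
def Cov (W dW U N : Set E) (l : E → ℝ) (t : E → E) (ε : ℝ) (n : ℕ) : Prop :=
  ∃ (𝒞 : Finset (Set E)) (O : Set E → Set E), 𝒞.card ≤ n ∧
    (∀ j ∈ 𝒞, ROpen W (O j) ∧ Disjoint (O j) N ∧ (∀ x ∈ O j, Ch2 W dW U l t x) ∧
      ∀ a, |a| ≤ ε → IsPreconnected (fb (O j) l (fun x => l (t x)) a a)) ∧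
    (∀ i ∈ 𝒞, ∀ j ∈ 𝒞, i ≠ j → Disjoint (O i) (O j)) ∧
    ∀ x ∈ U, t x ∈ U → |l x| ≤ ε → |l (t x)| ≤ ε → x ∈ N ∨ ∃ j ∈ 𝒞, x ∈ O j

theorem Sg.fin (h : Sg W dW G c U {x | x ∈ W ∧ t x ∈ U} N l₁ m₁ μ lam ε η) (hI : Inv W dW G c t)
    (hs : s * s = 1) (hs' : s' * s' = 1) (e1 : ∀ x, l₁ x = s * l x) (e2 : ∀ x, m₁ x = s' * l (t x))
    (he : ∀ x ∈ U, x ∈ {x | x ∈ W ∧ t x ∈ U} → |l₁ x| ≤ ε → |m₁ x| ≤ ε → 0 ≤ lam x → x ∈ N)
    (hN : ∀ x ∈ N, t x ∈ N → s' = -s) (hC : Cov W dW U N l t ε n)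
    (hκ : 0 < κ) (ha : κ ≤ a) (hab : a < b) (hb : b + κ ≤ ε)
    (ess : ∀ u, |u| < κ → Ess W dW G c (hf U l₁ μ (a + u) (b + u) ∪
      hf {x | x ∈ W ∧ t x ∈ U} m₁ lam (b + u) (a + u))) :
    ∃ U' l' η', Fam W dW G c U' l' η' ∧ Tr W dW U' l' t ∧ Cnt (Dbl U' l' t) n := by
  classical
  obtain ⟨U₁, ν, O₁, hF, h0, hO, hO1, hO2⟩ := h.new hκ ha (by linarith) (by linarith) hb ess
  obtain ⟨𝒞, O, hcard, hj, hdis, hcov⟩ := hC
  have a0 : 0 < a := by linarith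
  have aε : |a| ≤ ε := by rw [abs_of_pos a0]; linarith
  have bε : |b| ≤ ε := by rw [abs_of_pos (a0.trans hab)]; linarith
  have ab : ∀ {v : ℝ}, s * v = a → s' * v < b := fun {v} h1 => by
    have := le_abs_self (s' * v)
    rw [abs_sgn hs', ← abs_sgn hs, h1, abs_of_pos a0] at this
    linarith
  let F : Set E := {x | x ∈ U ∧ t x ∈ U ∧ s * l x = a ∧ s * l (t x) = a}
  have tF : ∀ x ∈ F, t x ∈ F := fun x hx =>
    ⟨hx.2.1, by rw [hI.inv x (h.f1.sub hx.1)]; exact hx.1, hx.2.2.2,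
      by rw [hI.inv x (h.f1.sub hx.1)]; exact hx.2.2.1⟩
  have ltN : ∀ x ∈ F, x ∈ N → μ x < b := fun x hx h1 => by
    rw [(h.on x h1).2.2.1, e2]; exact ab hx.2.2.2
  have ne : ∀ x ∈ F, μ x ≠ b := fun x hx h1 =>
    (ltN x hx (h.n1 x hx.1 (by rw [e1, hx.2.2.1]; exact aε) (h1 ▸ bε))).ne h1
  have key : ∀ x, x ∈ Dbl U₁ ν t ↔ x ∈ F ∧ b < μ x ∧ b < μ (t x) := by
    intro x
    constructor
    · rintro ⟨h1, h2, h3, h4⟩
      have h5 := (h0 x).1 ⟨h1, h3⟩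
      have h6 := (h0 _).1 ⟨h2, h4⟩
      have hi := hI.inv x (hF.sub h1)
      rcases h5 with ⟨a1, a2, a3⟩ | ⟨a1, a2, a3⟩ <;> rcases h6 with ⟨b1, b2, b3⟩ | ⟨b1, b2, b3⟩
      · have hx : x ∈ F := ⟨a1, b1, e1 x ▸ a2, e1 _ ▸ b2⟩
        exact ⟨hx, lt_of_le_of_ne a3 (ne x hx).symm, lt_of_le_of_ne b3 (ne _ (tF x hx)).symm⟩
      · rw [e2, hi] at b2
        exact ((ab (e1 x ▸ a2)).ne b2).elim
      · rw [e2] at a2
        exact ((ab (e1 _ ▸ b2)).ne a2).elim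
      · exfalso
        have xU : x ∈ U := hi ▸ b1.2
        have c1 : s' * l x = b := by rw [← b2, e2, hi]
        have c2 : s' * l (t x) = b := by rw [← a2, e2]
        have n1 := he x xU a1 (by rw [e1, abs_sgn hs, ← abs_sgn hs', c1]; exact bε) (a2 ▸ bε)
          (by linarith)
        have n2 := he _ a1.2 b1 (by rw [e1, abs_sgn hs, ← abs_sgn hs', c2]; exact bε) (b2 ▸ bε)
          (by linarith)
        rw [(h.on x n1).2.2.2, e1] at a3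
        rw [hN x n1 n2] at c1
        linarith
    · rintro ⟨hx, h1, h2⟩
      have h5 := (h0 x).2 (Or.inl ⟨hx.1, e1 x ▸ hx.2.2.1, h1.le⟩)
      have h6 := (h0 _).2 (Or.inl ⟨hx.2.1, e1 _ ▸ hx.2.2.2, h2.le⟩)
      exact ⟨h5.1, h6.1, h5.2, h6.2⟩
  have cov : ∀ x ∈ F, x ∈ N ∨ ∃ j ∈ 𝒞, x ∈ O j := fun x hx => hcov x hx.1 hx.2.1
    (by rw [← abs_sgn hs, hx.2.2.1]; exact aε) (by rw [← abs_sgn hs, hx.2.2.2]; exact aε)
  have cov' : ∀ x ∈ Dbl U₁ ν t, ∃ j ∈ 𝒞, x ∈ O j := fun x hx =>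
    (cov x ((key x).1 hx).1).resolve_left fun h1 =>
      (ltN x ((key x).1 hx).1 h1).not_gt ((key x).1 hx).2.1
  refine ⟨U₁, ν, κ, hF, fun x hx => ?_, ?_⟩
  · obtain ⟨j, h1, h2⟩ := cov' x hx
    obtain ⟨k, h3, h4⟩ := (hj j h1).2.2.1 x h2
    obtain ⟨hx', h5, h6⟩ := (key x).1 hx
    refine ⟨(k.post (affH s s a a hs hs) fun _ => rfl).restr _
      (hO.inter ((rOpen_self W).preim hI.pl.1 hI.maps hO)), ⟨h3, hO2 x hx'.1 (e1 x ▸ hx'.2.2.1) h5,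
        k.sub h3, hO2 _ hx'.2.1 (e1 _ ▸ hx'.2.2.2) h6⟩, fun y hy => ⟨(hO1 y hy.2.1).1,
          (hO1 _ hy.2.2.2).1, ?_, ?_⟩⟩
    · show s * k.e.f y 0 - a = _
      rw [(hO1 y hy.2.1).2, e1, (h4 y hy.1).2.2.1]
    · show s * k.e.f y 1 - a = _
      rw [(hO1 _ hy.2.2.2).2, e1, (h4 y hy.1).2.2.2]
  have eF : ∀ j ∈ 𝒞, fb (O j) l (fun x => l (t x)) (s * a) (s * a) = F ∩ O j := by
    intro j hj'
    ext x
    constructor
    · rintro ⟨h1, h2, h3⟩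
      obtain ⟨k, h4, h5⟩ := (hj j hj').2.2.1 x h1
      exact ⟨⟨(h5 x h4).1, (h5 x h4).2.1, (sgn_eq hs).2 h2, (sgn_eq hs).2 h3⟩, h1⟩
    · exact fun hx => ⟨hx.2, (sgn_eq hs).1 hx.1.2.2.1, (sgn_eq hs).1 hx.1.2.2.2⟩
  have preF : ∀ j ∈ 𝒞, IsPreconnected (F ∩ O j) := fun j hj' =>
    eF j hj' ▸ (hj j hj').2.2.2 _ (by rwa [abs_sgn hs])
  have FW : F ⊆ W := fun x hx => h.f1.sub hx.1
  have cF : IsCompact F := by
    convert (h.lev aε).1.isCompact.inter_right (h.symm.lev (a := s' * (s * a))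
      (by rwa [abs_sgn hs', abs_sgn hs])).1.isClosed using 1
    ext x
    refine ⟨fun hx => ⟨⟨hx.1, e1 x ▸ hx.2.2.1⟩, ⟨FW hx, hx.2.1⟩, ?_⟩,
      fun hx => ⟨hx.1.1, hx.2.1.2, e1 x ▸ hx.1.2, ?_⟩⟩
    · rw [e2, (sgn_eq hs).1 hx.2.2.2]
    · have := hx.2.2
      rw [e2, sgn_eq hs', ← mul_assoc, hs', one_mul] at this
      exact (sgn_eq hs).2 this
  refine ⟨(𝒞.filter fun j => F ∩ O j ⊆ Dbl U₁ ν t).image fun j => F ∩ O j,
    Finset.card_image_le.trans ((Finset.card_filter_le _ _).trans hcard), ?_, ?_, ?_⟩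
  · intro z hz
    obtain ⟨j, h1, rfl⟩ := Finset.mem_image.1 hz
    have h2 := (Finset.mem_filter.1 h1).1
    refine ⟨?_, preF j h2⟩
    convert cpt_diff cF FW (h.opn.union (rOpen_ex (p := fun i => i ∈ 𝒞 ∧ i ≠ j) (O := O)
      fun i hi => (hj i hi.1).1)) using 1
    ext x
    refine ⟨fun hx => ⟨hx.1, ?_⟩, fun hx => ⟨hx.1, ?_⟩⟩
    · rintro (h3 | ⟨i, h3, h4⟩)
      · exact disjoint_left.1 (hj j h2).2.1 hx.2 h3
      · exact disjoint_left.1 (hdis i h3.1 j h2 h3.2) h4 hx.2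
    · rcases cov x hx.1 with h3 | ⟨i, h3, h4⟩
      · exact (hx.2 (Or.inl h3)).elim
      · by_contra h5
        exact hx.2 (Or.inr ⟨i, ⟨h3, fun e => h5 (e ▸ h4)⟩, h4⟩)
  · intro z hz z' hz' hne
    obtain ⟨j, h1, rfl⟩ := Finset.mem_image.1 hz
    obtain ⟨i, h2, rfl⟩ := Finset.mem_image.1 hz'
    exact (hdis j (Finset.mem_filter.1 h1).1 i (Finset.mem_filter.1 h2).1
      fun e => hne (e ▸ rfl)).mono inter_subset_right inter_subset_right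
  · ext x
    constructor
    · rintro ⟨z, hz, hx⟩
      obtain ⟨j, h1, rfl⟩ := Finset.mem_image.1 hz
      exact (Finset.mem_filter.1 h1).2 hx
    · intro hx
      obtain ⟨j, h1, h2⟩ := cov' x hx
      obtain ⟨hx', h5, h6⟩ := (key x).1 hx
      refine ⟨F ∩ O j, Finset.mem_image.2 ⟨j, Finset.mem_filter.2 ⟨h1, fun y hy => (key y).2
        ⟨hy.1, pre_gt (preF j h1) h.c1.continuousOn (fun z hz => ne z hz.1) ⟨hx', h2⟩ h5 y hy,
          pre_gt (preF j h1) (f := fun x => μ (t x)) (h.c1.comp_continuousOn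
            (hI.pl.1.mono (inter_subset_left.trans FW))) (fun z hz => ne _ (tF z hz.1))
            ⟨hx', h2⟩ h6 y hy⟩⟩, rfl⟩, hx', h2⟩

end Crest.Agent.X212.Dsc4
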