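import Crest.Agent.X212.Prd34.Defs
import Crest.Agent.X212.Lev33.Coc

/-!
# X212 / T layer, loop theorem: abstract PL three-manifolds, essential discs, the descent step
(helper4).  Definitions and Props only.
-/

set_option autoImplicit false

open Set Metric Topology

namespace Crest.Agent.X212.Dsc4

open Crest.Agent.R096.Ce_537
open Crest.Agent.X212.Prd34 (V up fl side)
open Crest.Agent.X212.Lev33 (Coc Prim)

section

variable {E : Type} [NormedAddCommGroup E] [NormedSpace ℝ E]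

/-- relatively open subset -/
def ROpen {X : Type*} [TopologicalSpace X] (W O : Set X) : Prop := ∃ A, IsOpen A ∧ O = A ∩ W

/-- a half space chart of the pair `(W, dW)` -/
structure Ch (W dW : Set E) where
  /-- domain -/
  O : Set E
  /-- range -/
  O' : Set V
  /-- the chart -/
  e : PLEquiv O O'
  opn : ROpen W O
  opn' : ROpen up O'
  bd : ∀ x ∈ O, x ∈ dW ↔ e.f x 2 = 0

/-- PL three-manifold with boundary inside any normed space (not necessarily compact) -/
def MfE (W dW : Set E) : Prop := dW ⊆ W ∧ ∀ x ∈ W, ∃ k : Ch W dW, x ∈ k.O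

variable {Γ : Type} [Group Γ]

/-- essential proper disc: the boundary lies in `G` and the cocycle `c` has no primitive on it -/
def Ess (W dW G : Set E) (c : E → E → Γ) (D : Set E) : Prop :=
  IsBall 2 D (D ∩ dW) ∧ D ⊆ W ∧ D ∩ dW ⊆ G ∧ ¬ ∃ b, Prim (D ∩ dW) c b

/-- a family of essential discs: the levels of `l` on `U` -/
structure Fam (W dW G : Set E) (c : E → E → Γ) (U : Set E) (l : E → ℝ) (η : ℝ) : Prop where
  pos : 0 < η
  ch : ∀ x ∈ U, ∃ k : Ch W dW, x ∈ k.O ∧ k.O ⊆ U ∧ ∀ y ∈ k.O, k.e.f y 0 = l y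
  cpt : ∀ a, a < η → IsCompact {x | x ∈ U ∧ |l x| ≤ a}
  ess : ∀ a, |a| < η → Ess W dW G c {x | x ∈ U ∧ l x = a}

/-- a free PL involution compatible with all data -/
structure Inv (W dW G : Set E) (c : E → E → Γ) (t : E → E) : Prop where
  pl : PLOn t W
  maps : MapsTo t W W
  inv : ∀ x ∈ W, t (t x) = x
  free : ∀ x ∈ W, t x ≠ x
  bd : MapsTo t dW dW
  mapsG : MapsTo t G G
  coc : ∀ x ∈ G, ∀ y ∈ G, c (t x) (t y) = c x y

end

/-- **(THICKE)** product neighbourhood of a proper disc in an abstract manifold -/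
def ThickE : Prop := ∀ (E : Type) [NormedAddCommGroup E] [NormedSpace ℝ E] [FiniteDimensional ℝ E]
  (W dW D A : Set E), MfE W dW → IsBall 2 D (D ∩ dW) → D ⊆ W → IsOpen A → D ⊆ A →
  ∃ (R : Set E) (e : PLEquiv (cube 3) R), R ⊆ W ∩ A ∧ e.f '' (cube 3 ∩ fl) = D ∧
    R ∩ dW = e.f '' side ∧ ∀ x ∈ D, R ∈ 𝓝[W] x

/-- **(DESCF)** descent for families -/
def DescF : Prop := ∀ (E : Type) [NormedAddCommGroup E] [NormedSpace ℝ E] [FiniteDimensional ℝ E]
  (Γ : Type) [Group Γ] (W dW G : Set E) (c : E → E → Γ) (t : E → E) (U : Set E) (l : E → ℝ) (η : ℝ),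
  dW ⊆ W → G ⊆ dW → Coc G c → Inv W dW G c t → Fam W dW G c U l η →
  ∃ U' l' η', Fam W dW G c U' l' η' ∧ Disjoint U' (t '' U')

/-- **(DESC)** descent for discs -/
def Desc : Prop := ∀ (E : Type) [NormedAddCommGroup E] [NormedSpace ℝ E] [FiniteDimensional ℝ E]
  (Γ : Type) [Group Γ] (W dW G : Set E) (c : E → E → Γ) (t : E → E) (D : Set E),
  MfE W dW → ROpen dW G → Coc G c → Inv W dW G c t → Ess W dW G c D →
  ∃ D', Ess W dW G c D' ∧ Disjoint D' (t '' D')

end Crest.Agent.X212.Dsc4
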