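import Crest.Agent.R096.Srg1_465
import Crest.Agent.R096.Gn1_296

/-!
# X212 / T layer, descent step: cutting discs along circles and arcs, innermost pieces (helper4)
-/

set_option autoImplicit false
set_option linter.unusedSectionVars false

open Set Metric Topology Filter

namespace Crest.Agent.X212.Dsc4

open Crest.Agent.R096 Crest.Agent.R096.Ce_537 Crest.Agent.R096.Cb_609
open Crest.Agent.R096.Pl (S1 Kp Km Eqt N1)

variable {E : Type} [NormedAddCommGroup E] [NormedSpace ℝ E]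

/-- `D` is cut along `c` into the closed pieces `P`, `Q` -/
structure Cut (D c P Q : Set E) : Prop where
  clP : IsClosed P
  clQ : IsClosed Q
  un : P ∪ Q = D
  it : P ∩ Q = c
  neP : (P \ c).Nonempty
  neQ : (Q \ c).Nonempty

variable {D Γ c P Q A B d : Set E} {p q : E}

theorem Cut.symm (h : Cut D c P Q) : Cut D c Q P :=
  ⟨h.clQ, h.clP, by rw [union_comm]; exact h.un, by rw [inter_comm]; exact h.it, h.neQ, h.neP⟩

theorem Cut.subP (h : Cut D c P Q) : P ⊆ D := h.un ▸ subset_union_left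
theorem Cut.subQ (h : Cut D c P Q) : Q ⊆ D := h.un ▸ subset_union_right
theorem Cut.cP (h : Cut D c P Q) : c ⊆ P := h.it ▸ inter_subset_left
theorem Cut.cQ (h : Cut D c P Q) : c ⊆ Q := h.it ▸ inter_subset_right

theorem Cut.mem (h : Cut D c P Q) {x : E} (hP : x ∈ P) (hQ : x ∈ Q) : x ∈ c := h.it ▸ ⟨hP, hQ⟩

theorem Cut.or (h : Cut D c P Q) {x : E} (hx : x ∈ D) : x ∈ P ∨ x ∈ Q := by
  rw [← h.un] at hx; exact hx

theorem Cut.split (h : Cut D c P Q) {C : Set E} (hC : IsPreconnected C) (hCD : C ⊆ D)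
    (hd : Disjoint C c) : (C ⊆ P ∧ Disjoint C Q) ∨ (C ⊆ Q ∧ Disjoint C P) :=
  Srg_465.split_of_union h.clP h.clQ h.un h.it hC hCD hd

/-- a cut with connected open sides is unique -/
theorem Cut.unique (h : Cut D c A B) (hA : IsPreconnected (A \ c)) (hB : IsPreconnected (B \ c))
    (h' : Cut D c P Q) : (P = A ∧ Q = B) ∨ (P = B ∧ Q = A) := by
  have fin : ∀ {A B P Q : Set E}, Cut D c A B → Cut D c P Q → A \ c ⊆ P → B \ c ⊆ Q → P = A := by
    intro A B P Q h h' a b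
    apply Subset.antisymm
    · intro x hx
      by_cases hc : x ∈ c
      · exact h.cP hc
      · exact (h.or (h'.subP hx)).resolve_right fun h1 => hc (h'.mem hx (b ⟨h1, hc⟩))
    · intro x hx
      by_cases hc : x ∈ c
      · exact h'.cP hc
      · exact a ⟨hx, hc⟩
  have no : ∀ {P Q : Set E}, Cut D c P Q → A \ c ⊆ P → B \ c ⊆ P → False := by
    intro P Q h' a b
    obtain ⟨x, hx, hxc⟩ := h'.neQ
    rcases h.or (h'.subQ hx) with h1 | h1
    · exact hxc (h'.mem (a ⟨h1, hxc⟩) hx)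
    · exact hxc (h'.mem (b ⟨h1, hxc⟩) hx)
  rcases h'.split hA (sdiff_subset.trans h.subP) disjoint_sdiff_left with a | a <;>
    rcases h'.split hB (sdiff_subset.trans h.subQ) disjoint_sdiff_left with b | b
  · exact (no h' a.1 b.1).elim
  · exact Or.inl ⟨fin h h' a.1 b.1, fin h.symm h'.symm b.1 a.1⟩
  · exact Or.inr ⟨fin h.symm h' b.1 a.1, fin h h'.symm a.1 b.1⟩
  · exact (no h'.symm a.1 b.1).elim

theorem circ_pre (hc : Nonempty (PLEquiv (S1 ℝ) c)) : IsPreconnected c := by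
  obtain ⟨e⟩ := hc
  rw [← e.image_eq]
  exact (Srg_465.isPreconnected_of_disc isBall_plane).image _ e.pf.1

theorem circ_ne (hc : Nonempty (PLEquiv (S1 ℝ) c)) : c.Nonempty := by
  obtain ⟨e⟩ := hc
  obtain ⟨x, hx⟩ := Srg_465.nonempty_of_disc isBall_plane
  exact ⟨_, e.mf hx⟩

/-- the outer piece is connected -/
theorem Cut.preQ (h : Cut D c P Q) (hD : IsPreconnected D) (hc : IsPreconnected c)
    (hne : c.Nonempty) : IsPreconnected Q := by
  rw [isPreconnected_iff_subset_of_disjoint_closed]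
  have key : ∀ u v : Set E, IsClosed u → IsClosed v → Q ⊆ u ∪ v → Q ∩ (u ∩ v) = ∅ → c ⊆ u →
      Q ⊆ u := by
    intro u v hu hv hQ hi hcu
    have h1 := isPreconnected_iff_subset_of_disjoint_closed.1 hD (P ∪ (Q ∩ u)) (Q ∩ v)
      (h.clP.union (h.clQ.inter hu)) (h.clQ.inter hv) (fun x hx => by
        rcases h.or hx with h1 | h1
        · exact Or.inl (Or.inl h1)
        · rcases hQ h1 with h2 | h2
          · exact Or.inl (Or.inr ⟨h1, h2⟩)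
          · exact Or.inr ⟨h1, h2⟩) (by
        rw [eq_empty_iff_forall_notMem] at hi ⊢
        rintro x ⟨-, h1 | h1, h2⟩
        · exact hi x ⟨h2.1, hcu (h.mem h1 h2.1), h2.2⟩
        · exact hi x ⟨h2.1, h1.2, h2.2⟩)
    rcases h1 with h1 | h1
    · intro x hx
      rcases h1 (h.subQ hx) with h2 | h2
      · exact hcu (h.mem h2 hx)
      · exact h2.2
    · obtain ⟨x, hx⟩ := hne
      rw [eq_empty_iff_forall_notMem] at hi
      exact (hi x ⟨h.cQ hx, hcu hx, (h1 (h.subQ (h.cQ hx))).2⟩).elim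
  intro u v hu hv hQ hi
  rcases isPreconnected_iff_subset_of_disjoint_closed.1 hc u v hu hv (h.cQ.trans hQ) (by
    rw [eq_empty_iff_forall_notMem] at hi ⊢
    exact fun x hx => hi x ⟨h.cQ hx.1, hx.2⟩) with h1 | h1
  · exact Or.inl (key u v hu hv hQ hi h1)
  · exact Or.inr (key v u hv hu (by rwa [union_comm]) (by rwa [inter_comm v]) h1)

/-- **a circle in the interior of a disc** -/
theorem circ_cut (hD : IsBall 2 D Γ) (hc : Nonempty (PLEquiv (S1 ℝ) c)) (hcD : c ⊆ D)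
    (hd : Disjoint c Γ) : ∃ A B, Cut D c A B ∧ IsBall 2 A c ∧ Γ ⊆ B ∧ c ⊆ closure (B \ c) ∧
      (∀ P Q, Cut D c P Q → Γ ⊆ Q → P = A ∧ Q = B) ∧ ∀ d, IsBall 2 d c → d ⊆ D → d = A := by
  have M := ballPair_real2
  obtain ⟨e, he, he'⟩ := hD.exists_equiv M.ball₁
  have hΓD := hD.subset
  set c' := e.f '' c with hc'
  have hcc : Nonempty (PLEquiv (S1 ℝ) c') := hc.map fun a => a.trans (e.restrImage hcD)
  have hcK : c' ⊆ Kp (ℝ × ℝ) := by rintro _ ⟨x, hx, rfl⟩; exact e.mf (hcD hx)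
  have hEq : ∀ x ∈ D, e.f x ∈ Km (ℝ × ℝ) → x ∈ Γ := by
    intro x hx h1
    have : e.f x ∈ Eqt (ℝ × ℝ) := M.inter ▸ ⟨e.mf hx, h1⟩
    rw [← he', ← e.li x hx]; exact ⟨_, this, rfl⟩
  have hΓ : ∀ x ∈ Γ, e.f x ∈ Km (ℝ × ℝ) := fun x hx => M.ball₂.subset (he ▸ ⟨x, hx, rfl⟩)
  have hdK : Disjoint (Km (ℝ × ℝ)) c' := by
    rw [disjoint_left]
    rintro _ h1 ⟨x, hx, rfl⟩
    exact disjoint_left.1 hd hx (hEq x (hcD hx) h1)
  have hmem : ∀ x ∈ D, e.f x ∈ c' ↔ x ∈ c := fun x hx =>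
    ⟨fun ⟨y, hy, h1⟩ => e.injOn (hcD hy) hx h1 ▸ hy, fun h => ⟨x, h, rfl⟩⟩
  have main : ∀ A' B' : Set ((ℝ × ℝ) × ℝ), IsBall 2 A' c' → IsBall 2 B' c' → A' ∩ B' = c' →
      A' ∪ B' = Kp (ℝ × ℝ) ∪ Km (ℝ × ℝ) → Km (ℝ × ℝ) ⊆ B' → Disjoint (Km (ℝ × ℝ)) A' →
      ∃ A B, Cut D c A B ∧ IsBall 2 A c ∧ Γ ⊆ B ∧ c ⊆ closure (B \ c) ∧
      (∀ P Q, Cut D c P Q → Γ ⊆ Q → P = A ∧ Q = B) ∧ ∀ d, IsBall 2 d c → d ⊆ D → d = A := by
    intro A' B' hA hB hi hu hKB hKA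
    have hAK : A' ⊆ Kp (ℝ × ℝ) := fun y hy =>
      (hu ▸ (Or.inl hy : y ∈ A' ∪ B') : y ∈ Kp (ℝ × ℝ) ∪ Km (ℝ × ℝ)).resolve_right
        fun h => disjoint_left.1 hKA h hy
    have eA : e.g '' A' = {x | x ∈ D ∧ e.f x ∈ A'} := by
      ext x
      constructor
      · rintro ⟨y, hy, rfl⟩
        exact ⟨e.mg (hAK hy), by rw [e.ri y (hAK hy)]; exact hy⟩
      · exact fun h => ⟨_, h.2, e.li x h.1⟩
    have bA : IsBall 2 {x | x ∈ D ∧ e.f x ∈ A'} c := by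
      have : IsBall 2 (e.g '' A') (e.g '' c') := hA.map (e.symm.restrImage hAK)
      rwa [eA, image_g e hcD hc'.symm] at this
    have clB : IsClosed {x | x ∈ D ∧ e.f x ∈ B'} :=
      e.pf.1.preimage_isClosed_of_isClosed hD.isClosed hB.isClosed
    have hcl : c ⊆ closure ({x | x ∈ D ∧ e.f x ∈ B'} \ c) := by
      intro x hx
      have h1 : e.f x ∈ closure (B' \ c') := by
        rw [hB.closure_diff]; exact hB.subset ⟨x, hx, rfl⟩
      have h2 : (Km (ℝ × ℝ))ᶜ ∈ 𝓝 (e.f x) :=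
        M.ball₂.isClosed.isOpen_compl.mem_nhds fun h => disjoint_left.1 hdK h ⟨x, hx, rfl⟩
      have h3 : e.f x ∈ closure ((B' \ c') ∩ Kp (ℝ × ℝ)) := by
        rw [mem_closure_iff_nhds] at h1 ⊢
        intro t ht
        obtain ⟨y, hy, hy'⟩ := h1 _ (inter_mem ht h2)
        refine ⟨y, hy.1, hy', ?_⟩
        exact (hu ▸ (Or.inr hy'.1 : y ∈ A' ∪ B') : y ∈ Kp (ℝ × ℝ) ∪ Km (ℝ × ℝ)).resolve_right hy.2
      have h4 := ((e.pg.1 _ (e.mf (hcD hx))).mono inter_subset_right).mem_closure_image h3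
      rw [e.li x (hcD hx)] at h4
      refine closure_mono ?_ h4
      rintro _ ⟨y, ⟨hy, hyK⟩, rfl⟩
      refine ⟨⟨e.mg hyK, by rw [e.ri y hyK]; exact hy.1⟩, fun h => hy.2 ?_⟩
      rw [← e.ri y hyK]; exact ⟨_, h, rfl⟩
    have hΓB : Γ ⊆ {x | x ∈ D ∧ e.f x ∈ B'} := fun x hx => ⟨hΓD hx, hKB (hΓ x hx)⟩
    have cut : Cut D c {x | x ∈ D ∧ e.f x ∈ A'} {x | x ∈ D ∧ e.f x ∈ B'} := by
      refine ⟨bA.isClosed, clB, ?_, ?_, bA.nonempty_diff, ?_⟩
      · ext x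
        refine ⟨fun h => h.elim (·.1) (·.1), fun h => ?_⟩
        have : e.f x ∈ A' ∪ B' := hu ▸ Or.inl (e.mf h)
        exact this.elim (fun h1 => Or.inl ⟨h, h1⟩) fun h1 => Or.inr ⟨h, h1⟩
      · ext x
        refine ⟨fun h => (hmem x h.1.1).1 (hi ▸ ⟨h.1.2, h.2.2⟩), fun h => ?_⟩
        have : e.f x ∈ A' ∩ B' := hi ▸ ⟨x, h, rfl⟩
        exact ⟨⟨hcD h, this.1⟩, hcD h, this.2⟩
      · obtain ⟨x, hx⟩ := Srg_465.nonempty_of_disc hD
        exact ⟨x, hΓB hx, fun h => disjoint_left.1 hd h hx⟩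
    refine ⟨_, _, cut, bA, hΓB, hcl, fun P Q h hQ => ?_, fun d hb hdD => ?_⟩
    · have cP : IsCompact P := hD.isCompact.of_isClosed_subset h.clP h.subP
      have cQ : IsCompact Q := hD.isCompact.of_isClosed_subset h.clQ h.subQ
      have c0 : IsClosed (e.f '' P) := (cP.image_of_continuousOn (e.pf.1.mono h.subP)).isClosed
      have c1 : IsClosed (e.f '' Q ∪ Km (ℝ × ℝ)) :=
        (cQ.image_of_continuousOn (e.pf.1.mono h.subQ)).isClosed.union M.ball₂.isClosed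
      have u1 : e.f '' P ∪ (e.f '' Q ∪ Km (ℝ × ℝ)) = Kp (ℝ × ℝ) ∪ Km (ℝ × ℝ) := by
        rw [← union_assoc, ← image_union, h.un, e.image_eq]
      have i1 : e.f '' P ∩ (e.f '' Q ∪ Km (ℝ × ℝ)) = c' := by
        apply Subset.antisymm
        · rintro _ ⟨⟨x, hx, rfl⟩, ⟨y, hy, h1⟩ | h1⟩
          · exact ⟨x, h.mem hx (e.injOn (h.subQ hy) (h.subP hx) h1 ▸ hy), rfl⟩
          · exact ⟨x, h.mem hx (hQ (hEq x (h.subP hx) h1)), rfl⟩
        · rintro _ ⟨x, hx, rfl⟩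
          exact ⟨⟨x, h.cP hx, rfl⟩, Or.inl ⟨x, h.cQ hx, rfl⟩⟩
      obtain ⟨x0, hx0, hx0'⟩ := h.neP
      obtain ⟨x1, hx1, hx1'⟩ := h.neQ
      rcases Gn_296.sides_unique hA hB hu c0 c1 u1 i1
        ⟨e.f x0, ⟨x0, hx0, rfl⟩, fun h1 => hx0' ((hmem x0 (h.subP hx0)).1 h1)⟩
        ⟨e.f x1, Or.inl ⟨x1, hx1, rfl⟩, fun h1 => hx1' ((hmem x1 (h.subQ hx1)).1 h1)⟩
        with ⟨a, b⟩ | ⟨-, b⟩
      · constructor
        · ext x
          refine ⟨fun hx => ⟨h.subP hx, a ▸ ⟨x, hx, rfl⟩⟩, fun hx => ?_⟩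
          obtain ⟨y, hy, h1⟩ : e.f x ∈ e.f '' P := a ▸ hx.2
          exact e.injOn (h.subP hy) hx.1 h1 ▸ hy
        · ext x
          refine ⟨fun hx => ⟨h.subQ hx, b ▸ Or.inl ⟨x, hx, rfl⟩⟩, fun hx => ?_⟩
          rcases (b ▸ hx.2 : e.f x ∈ e.f '' Q ∪ Km (ℝ × ℝ)) with ⟨y, hy, h1⟩ | h1
          · exact e.injOn (h.subQ hy) hx.1 h1 ▸ hy
          · exact hQ (hEq x hx.1 h1)
      · obtain ⟨y, hy⟩ := M.ball₂.nonempty
        exact (disjoint_left.1 hKA hy (b ▸ Or.inr hy)).elim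
    · have hb' : IsBall 2 (e.f '' d) c' := hb.map (e.restrImage hdD)
      have hsub : e.f '' d ⊆ Kp (ℝ × ℝ) := by rintro _ ⟨x, hx, rfl⟩; exact e.mf (hdD hx)
      have ext : ∀ {Z : Set ((ℝ × ℝ) × ℝ)}, IsBall 2 Z c' → e.f '' d \ c' ⊆ Z → e.f '' d = Z :=
        fun hZ h1 => ball_eq_of_subset hb' hZ fun y hy => by
          by_cases h2 : y ∈ c'
          · exact hZ.subset h2
          · exact h1 ⟨hy, h2⟩
      rcases Srg_465.split_of_union hA.isClosed hB.isClosed hu hi hb'.isPreconnected_diff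
        (sdiff_subset.trans (hsub.trans subset_union_left)) disjoint_sdiff_left with h1 | h1
      · have h2 := ext hA h1.1
        ext x
        refine ⟨fun hx => ⟨hdD hx, h2 ▸ ⟨x, hx, rfl⟩⟩, fun hx => ?_⟩
        obtain ⟨y, hy, h3⟩ : e.f x ∈ e.f '' d := h2 ▸ hx.2
        exact e.injOn (hdD hy) hx.1 h3 ▸ hy
      · have h2 := ext hB h1.1
        obtain ⟨y, hy, hy'⟩ := M.ball₂.nonempty_diff
        exact (hy' (M.inter ▸ ⟨hsub (h2 ▸ hKB hy), hy⟩)).elim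
  obtain ⟨A', B', hP, hu⟩ := sphere_sides M.ball hcc (hcK.trans subset_union_left)
  rcases Srg_465.split_of_union hP.ball₁.isClosed hP.ball₂.isClosed hu hP.inter
    M.ball₂.isPreconnected subset_union_right hdK with h1 | h1
  · exact main B' A' hP.ball₂ hP.ball₁ (by rw [inter_comm]; exact hP.inter)
      (by rw [union_comm]; exact hu) h1.1 h1.2
  · exact main A' B' hP.ball₁ hP.ball₂ hP.inter hu h1.1 h1.2

/-- **replacement of the inner disc** -/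
theorem repl (hD : IsBall 2 D Γ) (h : Cut D c A B) (hA : IsBall 2 A c) (hΓ : Γ ⊆ B)
    (hd : IsBall 2 d c) (hi : d ∩ B = c) : IsBall 2 (d ∪ B) Γ := by
  obtain ⟨e, e1, e2⟩ := hA.extend hd (PLEquiv.refl c)
  have hf : EqOn e.f (PLEquiv.refl B).f (A ∩ B) := by rw [h.it]; exact e1
  have hg : EqOn e.g (PLEquiv.refl B).g (d ∩ B) := by rw [hi]; exact e2
  have h1 := (h.un ▸ hD : IsBall 2 (A ∪ B) Γ).map
    (glue e (PLEquiv.refl B) h.clP h.clQ hd.isClosed h.clQ hf hg)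
  convert h1 using 1
  rw [image_congr fun x hx => glue_f₂ e (PLEquiv.refl B) h.clP h.clQ hd.isClosed h.clQ hf hg (hΓ hx)]
  simp [PLEquiv.refl]

theorem pair_pre {X M T Z : Set E} {k : ℕ} (h : BallPair k X M T Z) : IsPreconnected (X \ M) :=
  h.ball.isPreconnected_diff.subset_closure (sdiff_subset_sdiff_right subset_union_left)
    (by rw [h.ball.closure_diff]; exact sdiff_subset)

theorem pair_cl {X M T Z : Set E} {k : ℕ} (h : BallPair k X M T Z) : M ⊆ closure (X \ M) := by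
  refine h.subset₁.trans ?_
  conv_lhs => rw [← h.ball.closure_diff]
  exact closure_mono (sdiff_subset_sdiff_right subset_union_left)

/-- **a proper arc in a disc** -/
theorem arc_cut (hD : IsBall 2 D Γ) (hc : IsBall 1 c {p, q}) (hcD : c ⊆ D) (hi : c ∩ Γ = {p, q}) :
    ∃ A B, Cut D c A B ∧ BallPair 1 A c (A ∩ Γ) {p, q} ∧ BallPair 1 B c (B ∩ Γ) {p, q} := by
  obtain ⟨K₁, K₂, S₁, S₂, h0, hS, h1, h2, hu, hK⟩ := cut_disc hD hc hcD hi
  have key : ∀ {K₁ K₂ S₁ S₂ : Set E}, S₁ ∪ S₂ = Γ → BallPair 1 K₁ c S₁ {p, q} →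
      BallPair 1 K₂ c S₂ {p, q} → K₁ ∩ K₂ = c → K₁ ∩ Γ = S₁ := by
    intro K₁ K₂ S₁ S₂ hS h1 h2 hK
    apply Subset.antisymm
    · rintro x ⟨hx, hxΓ⟩
      rcases (hS ▸ hxΓ : x ∈ S₁ ∪ S₂) with h | h
      · exact h
      · exact h1.ball₂.subset (hi ▸ ⟨hK ▸ ⟨hx, h2.subset₂ h⟩, hxΓ⟩)
    · exact fun x hx => ⟨h1.subset₂ hx, hS ▸ Or.inl hx⟩
  have ne : ∀ {K S : Set E}, BallPair 1 K c S {p, q} → (K \ c).Nonempty := fun h =>
    h.ball.nonempty_diff.mono (sdiff_subset_sdiff_right subset_union_left)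
  refine ⟨K₁, K₂, ⟨h1.ball.isClosed, h2.ball.isClosed, hu, hK, ne h1, ne h2⟩, ?_, ?_⟩
  · rw [key hS h1 h2 hK]; exact h1
  · rw [key (by rw [union_comm]; exact hS) h2 h1 (by rw [inter_comm]; exact hK)]; exact h2

/-- any cut along a proper arc is the standard one -/
theorem Cut.arc (h : Cut D c P Q) (hD : IsBall 2 D Γ) (hc : IsBall 1 c {p, q})
    (hi : c ∩ Γ = {p, q}) : BallPair 1 P c (P ∩ Γ) {p, q} := by
  obtain ⟨A, B, h0, h1, h2⟩ := arc_cut hD hc (h.cP.trans h.subP) hi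
  rcases h0.unique (pair_pre h1) (pair_pre h2) h with ⟨rfl, -⟩ | ⟨rfl, -⟩
  · exact h1
  · exact h2

/-- any cut along a circle is the standard one -/
theorem Cut.circ (h : Cut D c P Q) (hD : IsBall 2 D Γ) (hc : Nonempty (PLEquiv (S1 ℝ) c))
    (hd : Disjoint c Γ) (hQ : Γ ⊆ Q) : IsBall 2 P c := by
  obtain ⟨A, B, -, h1, -, -, h2, -⟩ := circ_cut hD hc (h.cP.trans h.subP) hd
  rw [(h2 P Q h hQ).1]; exact h1

/-- a proper curve: circle in the interior or proper arc -/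
def Crv (Γ c : Set E) : Prop :=
  (Nonempty (PLEquiv (S1 ℝ) c) ∧ Disjoint c Γ) ∨ ∃ p q, IsBall 1 c {p, q} ∧ c ∩ Γ = {p, q}

theorem Crv.pre (h : Crv Γ c) : IsPreconnected c :=
  h.elim (fun h => circ_pre h.1) fun ⟨_, _, h, _⟩ => h.isPreconnected

theorem Crv.ne (h : Crv Γ c) : c.Nonempty :=
  h.elim (fun h => circ_ne h.1) fun ⟨_, _, h, _⟩ => h.nonempty

/-- an admissible cut: in the circle case `P` is the inner disc -/
structure Adm (D Γ c P Q : Set E) : Prop where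
  cut : Cut D c P Q
  clP : c ⊆ closure (P \ c)
  clQ : c ⊆ closure (Q \ c)
  out : Disjoint c Γ → Γ ⊆ Q

theorem Crv.exists_adm (h : Crv Γ c) (hD : IsBall 2 D Γ) (hcD : c ⊆ D) :
    ∃ P Q, Adm D Γ c P Q := by
  rcases h with ⟨h, hd⟩ | ⟨p, q, h, hi⟩
  · obtain ⟨A, B, h0, h1, h2, h3, -⟩ := circ_cut hD h hcD hd
    exact ⟨A, B, h0, by rw [h1.closure_diff]; exact h1.subset, h3, fun _ => h2⟩
  · obtain ⟨A, B, h0, h1, h2⟩ := arc_cut hD h hcD hi
    refine ⟨A, B, h0, pair_cl h1, pair_cl h2, fun hd => ?_⟩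
    have : p ∈ c ∩ Γ := hi ▸ Or.inl rfl
    exact (disjoint_left.1 hd this.1 this.2).elim

theorem Adm.meet (h : Adm D Γ c P Q) (hD : IsBall 2 D Γ) : (Γ ∩ Q).Nonempty := by
  by_cases hd : Disjoint c Γ
  · obtain ⟨x, hx⟩ := Srg_465.nonempty_of_disc hD
    exact ⟨x, hx, h.out hd hx⟩
  · obtain ⟨x, h1, h2⟩ := not_disjoint_iff.1 hd
    exact ⟨x, h2, h.cut.cQ h1⟩

/-- **innermost curve** -/
theorem innermost (hD : IsBall 2 D Γ) (𝒞 : Finset (Set E)) (hne : 𝒞.Nonempty)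
    (hc : ∀ c ∈ 𝒞, Crv Γ c ∧ c ⊆ D) (hdis : ∀ c ∈ 𝒞, ∀ c' ∈ 𝒞, c ≠ c' → Disjoint c c') :
    ∃ c ∈ 𝒞, ∃ P Q, Adm D Γ c P Q ∧ ∀ c' ∈ 𝒞, c' ≠ c → Disjoint P c' := by
  classical
  have key : ∀ n : ℕ, ∀ c ∈ 𝒞, ∀ P Q, Adm D Γ c P Q → (𝒞.filter fun c' => c' ⊆ P \ c).card ≤ n →
      ∃ c ∈ 𝒞, ∃ P Q, Adm D Γ c P Q ∧ ∀ c' ∈ 𝒞, c' ≠ c → Disjoint P c' := by
    intro n
    induction n using Nat.strong_induction_on with
    | _ n ih =>
    intro c hcc P Q h hn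
    by_cases hall : ∀ c' ∈ 𝒞, c' ≠ c → Disjoint P c'
    · exact ⟨c, hcc, P, Q, h, hall⟩
    push Not at hall
    obtain ⟨c', hc', hne', hnd⟩ := hall
    obtain ⟨k', s'⟩ := hc c' hc'
    have h1 : c' ⊆ P ∧ Disjoint c' Q := (h.cut.split k'.pre s' (hdis c' hc' c hcc hne')).resolve_right
      fun h1 => hnd h1.2.symm
    have hQ : IsPreconnected Q := h.cut.preQ hD.isPreconnected (hc c hcc).1.pre (hc c hcc).1.ne
    have step : ∀ A B, Adm D Γ c' A B → Disjoint Q A →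
        ∃ c ∈ 𝒞, ∃ P Q, Adm D Γ c P Q ∧ ∀ c' ∈ 𝒞, c' ≠ c → Disjoint P c' := by
      intro A B hA hd
      have hAP : A ⊆ P \ c := fun x hx =>
        ⟨(h.cut.or (hA.cut.subP hx)).resolve_right fun h2 => disjoint_left.1 hd h2 hx,
          fun h2 => disjoint_left.1 hd (h.cut.cQ h2) hx⟩
      refine ih _ (lt_of_lt_of_le (Finset.card_lt_card ?_) hn) c' hc' A B hA le_rfl
      refine Finset.ssubset_iff_subset_ne.2 ⟨fun z hz => ?_, fun he => ?_⟩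
      · rw [Finset.mem_filter] at hz ⊢
        exact ⟨hz.1, hz.2.trans (sdiff_subset.trans hAP)⟩
      · have : c' ∈ 𝒞.filter fun c'' => c'' ⊆ A \ c' := by
          rw [he, Finset.mem_filter]; exact ⟨hc', hA.cut.cP.trans hAP⟩
        obtain ⟨x, hx⟩ := k'.ne
        exact ((Finset.mem_filter.1 this).2 hx).2 hx
    obtain ⟨A, B, hA⟩ := k'.exists_adm hD s'
    rcases hA.cut.split hQ h.cut.subQ h1.2.symm with h2 | h2
    · refine step B A ⟨hA.cut.symm, hA.clQ, hA.clP, fun hd => ?_⟩ h2.2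
      obtain ⟨x, hx, hx'⟩ := h.meet hD
      exact (disjoint_left.1 h2.2 hx' (hA.out hd hx)).elim
    · exact step A B hA h2.2
  obtain ⟨c, hcc⟩ := hne
  obtain ⟨P, Q, h⟩ := (hc c hcc).1.exists_adm hD (hc c hcc).2
  exact key _ c hcc P Q h le_rfl

/-- a continuous self map of an arc has a fixed point -/
theorem arc_fix {Z : Set E} (hc : IsBall 1 c Z) {t : E → E} (ht : ContinuousOn t c)
    (hm : MapsTo t c c) : ∃ x ∈ c, t x = x := by
  obtain ⟨e, -⟩ := hc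
  have hmem : ∀ s ∈ Icc (-1 : ℝ) 1, (fun _ => s : Fin 1 → ℝ) ∈ cube 1 := by
    intro s hs
    rw [mem_closedBall_zero_iff, norm_fin_one]; exact abs_le.2 hs
  let φ : ℝ → ℝ := fun s => e.g (t (e.f fun _ => s)) 0 - s
  have hc1 : ContinuousOn (fun s : ℝ => e.f fun _ => s) (Icc (-1) 1) :=
    e.pf.1.comp (by fun_prop) hmem
  have hφ : ContinuousOn φ (Icc (-1) 1) :=
    ((continuous_apply 0).comp_continuousOn (e.pg.1.comp (ht.comp hc1 fun s hs => e.mf (hmem s hs))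
      fun s hs => hm (e.mf (hmem s hs)))).sub continuousOn_id
  have hb : ∀ s ∈ Icc (-1 : ℝ) 1, |e.g (t (e.f fun _ => s)) 0| ≤ 1 := by
    intro s hs
    have := e.mg (hm (e.mf (hmem s hs)))
    rwa [mem_closedBall_zero_iff, norm_fin_one] at this
  have h1 := abs_le.1 (hb (-1) ⟨le_rfl, by norm_num⟩)
  have h2 := abs_le.1 (hb 1 ⟨by norm_num, le_rfl⟩)
  obtain ⟨s, hs, h0⟩ := intermediate_value_Icc' (by norm_num : (-1 : ℝ) ≤ 1) hφ
    (show (0 : ℝ) ∈ Icc (φ 1) (φ (-1)) from ⟨by simp only [φ]; linarith, by simp only [φ]; linarith⟩)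
  refine ⟨_, e.mf (hmem s hs), ?_⟩
  have h3 : e.g (t (e.f fun _ => s)) = fun _ => s := by
    ext i
    rw [Subsingleton.elim i 0]
    simp only [φ] at h0; linarith
  rw [← e.ri _ (hm (e.mf (hmem s hs))), h3]

end Crest.Agent.X212.Dsc4
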