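import Crest.Agent.X212.Dsc4.Top

/-!
# X212 / T layer, descent step: fibres in charts, transport of families (helper4)
-/

set_option autoImplicit false
set_option linter.unusedSectionVars false

open Set Metric Topology Filter

namespace Crest.Agent.X212.Dsc4

open Crest.Agent.R096 Crest.Agent.R096.Ce_537 Crest.Agent.R096.Cb_609
open Crest.Agent.X212.Prd34 (V up)
open Crest.Agent.X212.Lev33 (Coc Prim)

variable {E : Type} [NormedAddCommGroup E] [NormedSpace ℝ E] {W dW : Set E}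

theorem cpt_sep {X Y : Type*} [TopologicalSpace X] [T2Space X] [TopologicalSpace Y] {K : Set X}
    (hK : IsCompact K) {f : X → Y} (hf : ContinuousOn f K) {T : Set Y} (hT : IsClosed T) :
    IsCompact {x | x ∈ K ∧ f x ∈ T} :=
  hK.of_isClosed_subset (hf.preimage_isClosed_of_isClosed hK.isClosed hT) fun _ h => h.1

theorem ROpen.inter_sub {X : Type*} [TopologicalSpace X] {W B c : Set X} (h : ROpen W B)
    (hc : c ⊆ W) : ROpen c (B ∩ c) := by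
  obtain ⟨A, hA, rfl⟩ := h
  exact ⟨A, hA, by rw [inter_assoc, inter_eq_right.2 hc]⟩

theorem convex_up : Convex ℝ up := fun _ hx _ hy a b ha hb _ => by
  show 0 ≤ a * _ + b * _
  exact add_nonneg (mul_nonneg ha hx) (mul_nonneg hb hy)

theorem convex_eq (i : Fin 3) (u : ℝ) : Convex ℝ {y : V | y i = u} := fun x hx y hy a b _ _ hab => by
  show a * x i + b * y i = u
  rw [show x i = u from hx, show y i = u from hy, ← add_mul, hab, one_mul]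

theorem convex_gt (i : Fin 3) (u : ℝ) : Convex ℝ {y : V | u < y i} :=
  (convex_Ioi u).linear_preimage (LinearMap.proj i : V →ₗ[ℝ] ℝ)

theorem convex_lt (i : Fin 3) (u : ℝ) : Convex ℝ {y : V | y i < u} :=
  (convex_Iio u).linear_preimage (LinearMap.proj i : V →ₗ[ℝ] ℝ)

namespace Ch

theorem box_eq (k : Ch W dW) {z : V} {r : ℝ} (h : ∀ y ∈ closedBall z r ∩ up, y ∈ k.O') (T : Set V) :
    {x | x ∈ k.O ∧ k.e.f x ∈ ball z r ∧ k.e.f x ∈ T} = k.e.g '' (ball z r ∩ up ∩ T) := by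
  ext x
  constructor
  · rintro ⟨h1, h2, h3⟩
    exact ⟨_, ⟨⟨h2, k.nonneg h1⟩, h3⟩, k.e.li x h1⟩
  · rintro ⟨y, ⟨⟨h1, h2⟩, h3⟩, rfl⟩
    have h4 := h y ⟨ball_subset_closedBall h1, h2⟩
    exact ⟨k.e.mg h4, by rw [k.e.ri y h4]; exact ⟨h1, h3⟩⟩

theorem box_pre (k : Ch W dW) {z : V} {r : ℝ} (h : ∀ y ∈ closedBall z r ∩ up, y ∈ k.O')
    {T : Set V} (hT : Convex ℝ T) :
    IsPreconnected {x | x ∈ k.O ∧ k.e.f x ∈ ball z r ∧ k.e.f x ∈ T} := by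
  rw [k.box_eq h]
  exact (((convex_ball z r).inter convex_up).inter hT).isPreconnected.image _
    (k.cont'.mono fun y hy => h y ⟨ball_subset_closedBall hy.1.1, hy.1.2⟩)

theorem rOpen_int (k : Ch W dW) : ROpen W (k.O \ dW) := by
  have : k.O \ dW = {x | x ∈ k.O ∧ k.e.f x 2 ∈ ({0} : Set ℝ)ᶜ} := by
    ext x
    exact ⟨fun h => ⟨h.1, fun e => h.2 ((k.bd x h.1).2 e)⟩,
      fun h => ⟨h.1, fun e => h.2 ((k.bd x h.1).1 e)⟩⟩
  rw [this]
  exact k.opn.sep (k.contc 2) isOpen_compl_singleton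

end Ch

theorem mem_ball3 {z y : V} {r : ℝ} (hr : 0 < r) : y ∈ ball z r ↔ ∀ i, |y i - z i| < r := by
  rw [mem_ball, dist_pi_lt_iff hr]; simp [Real.dist_eq]

theorem mem_seg3 {z y : V} {a b : ℝ} (hab : a < b) :
    y ∈ segment ℝ (![z 0, z 1, a] : V) ![z 0, z 1, b] ↔
      y 0 = z 0 ∧ y 1 = z 1 ∧ a ≤ y 2 ∧ y 2 ≤ b := by
  constructor
  · rintro ⟨u, v, hu, hv, huv, rfl⟩
    obtain rfl : u = 1 - v := by linarith
    refine ⟨by simp; ring, by simp; ring, ?_, ?_⟩ <;> simp <;> nlinarith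
  · rintro ⟨h0, h1, h2, h3⟩
    have hp : 0 < b - a := by linarith
    refine ⟨(b - y 2) / (b - a), (y 2 - a) / (b - a), div_nonneg (by linarith) hp.le,
      div_nonneg (by linarith) hp.le, by field_simp; ring, ?_⟩
    ext i; fin_cases i
    · simp [h0]; field_simp; ring
    · simp [h1]; field_simp; ring
    · simp; field_simp; ring

/-- a continuum which is a vertical line in charts is a circle or a proper arc -/
theorem crv_of_ch [FiniteDimensional ℝ E] (one : OneStmt) {c : Set E} (hc : IsCompact c)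
    (hp : IsPreconnected c) (hne : c.Nonempty) (hcW : c ⊆ W)
    (h : ∀ x ∈ c, ∃ k : Ch W dW, x ∈ k.O ∧ ∀ y ∈ k.O,
      y ∈ c ↔ k.e.f y 0 = k.e.f x 0 ∧ k.e.f y 1 = k.e.f x 1) : Crv dW c := by
  refine one E c dW hc hp hne fun x hx => ?_
  obtain ⟨k, hxO, hk⟩ := h x hx
  obtain ⟨r0, hr0, hb0⟩ := k.exists_box hxO univ_mem
  set z := k.e.f x with hz
  have key : ∀ r a : ℝ, 0 < r → r ≤ r0 → 0 ≤ a → z 2 - r ≤ a → a ≤ z 2 →
      IsBall 1 (k.e.g '' segment ℝ (![z 0, z 1, a] : V) ![z 0, z 1, z 2 + r])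
        {k.e.g ![z 0, z 1, a], k.e.g ![z 0, z 1, z 2 + r]} ∧
      (∀ y, y ∈ k.e.g '' segment ℝ (![z 0, z 1, a] : V) ![z 0, z 1, z 2 + r] ↔
        y ∈ k.O ∧ y ∈ c ∧ a ≤ k.e.f y 2 ∧ k.e.f y 2 ≤ z 2 + r) ∧
      ∀ y ∈ k.O, y ∈ c → ∀ u, a ≤ u → u ≤ z 2 + r → (y = k.e.g ![z 0, z 1, u] ↔ k.e.f y 2 = u) := by
    intro r a hr hrr ha h1 h2
    have hab : a < z 2 + r := by linarith
    have hO' : segment ℝ (![z 0, z 1, a] : V) ![z 0, z 1, z 2 + r] ⊆ k.O' := by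
      intro y hy
      obtain ⟨b0, b1, b2, b3⟩ := (mem_seg3 hab).1 hy
      refine (hb0 y ⟨?_, le_trans ha b2⟩).1
      rw [mem_closedBall, dist_pi_le_iff hr0.le]
      intro i; fin_cases i
      · simp [b0, hr0.le]
      · simp [b1, hr0.le]
      · simp only [Real.dist_eq]; exact abs_le.2 ⟨by show -r0 ≤ y 2 - z 2; linarith,
          by show y 2 - z 2 ≤ r0; linarith⟩
    refine ⟨?_, fun y => ⟨?_, fun hy => ?_⟩, fun y hy hyc u h3 h4 => ⟨fun e => ?_, fun e => ?_⟩⟩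
    · have := (isBall_segment (a := (![z 0, z 1, a] : V)) (b := ![z 0, z 1, z 2 + r]) fun e =>
        hab.ne (by simpa using congrFun e 2)).map (k.e.symm.restrImage hO')
      rwa [show (k.e.symm.restrImage hO').f = k.e.g from rfl, image_pair] at this
    · rintro ⟨w, hw, rfl⟩
      obtain ⟨b0, b1, b2, b3⟩ := (mem_seg3 hab).1 hw
      have hw' := hO' hw
      refine ⟨k.e.mg hw', (hk _ (k.e.mg hw')).2 ?_, ?_⟩ <;> rw [k.e.ri w hw']
      · exact ⟨b0, b1⟩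
      · exact ⟨b2, b3⟩
    · obtain ⟨b0, b1⟩ := (hk y hy.1).1 hy.2.1
      exact ⟨_, (mem_seg3 hab).2 ⟨b0, b1, hy.2.2⟩, k.e.li y hy.1⟩
    · rw [e, k.e.ri _ (hO' ((mem_seg3 (y := ![z 0, z 1, u]) hab).2 ⟨rfl, rfl, h3, h4⟩))]; rfl
    · obtain ⟨b0, b1⟩ := (hk y hy).1 hyc
      rw [← k.e.li y hy]; congr 1
      ext i; fin_cases i
      · exact b0
      · exact b1
      · exact e
  have hball : ∀ r : ℝ, 0 < r → ∀ y ∈ k.O, y ∈ c → (k.e.f y ∈ ball z r ↔ |k.e.f y 2 - z 2| < r) := by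
    intro r hr y hy hyc
    obtain ⟨b0, b1⟩ := (hk y hy).1 hyc
    rw [mem_ball3 hr]
    refine ⟨fun h => h 2, fun h i => ?_⟩
    fin_cases i
    · simpa [b0] using hr
    · simpa [b1] using hr
    · exact h
  rcases (k.nonneg hxO).eq_or_lt with h0 | h0
  · have h0 : z 2 = 0 := h0.symm
    obtain ⟨a1, a2, a3⟩ := key r0 0 hr0 le_rfl le_rfl (by linarith) h0.ge
    have e1 : k.e.g '' segment ℝ (![z 0, z 1, 0] : V) ![z 0, z 1, z 2 + r0] \
        {k.e.g ![z 0, z 1, z 2 + r0]} = {y | y ∈ k.O ∧ k.e.f y ∈ ball z r0} ∩ c := by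
      ext y
      constructor
      · rintro ⟨b1, b2⟩
        obtain ⟨b3, b4, b5, b6⟩ := (a2 y).1 b1
        have b7 : k.e.f y 2 ≠ z 2 + r0 := fun e => b2 ((a3 y b3 b4 _ (by linarith) le_rfl).2 e)
        exact ⟨⟨b3, (hball r0 hr0 y b3 b4).2 (abs_lt.2 ⟨by linarith,
          by have := lt_of_le_of_ne b6 b7; linarith⟩)⟩, b4⟩
      · rintro ⟨⟨b1, b2⟩, b3⟩
        have b4 := abs_lt.1 ((hball r0 hr0 y b1 b3).1 b2)
        exact ⟨(a2 y).2 ⟨b1, b3, k.nonneg b1, by linarith⟩, fun e => by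
          have := (a3 y b1 b3 _ (by linarith) le_rfl).1 e; linarith⟩
    refine ⟨_, _, _, a1, fun y hy => ((a2 y).1 hy).2.1, Or.inr ⟨?_, ?_, ?_⟩⟩
    · rw [e1]; exact ⟨⟨hxO, mem_ball_self hr0⟩, hx⟩
    · rw [e1]; exact (k.rOpen_box z r0).inter_sub hcW
    · ext y
      constructor
      · rintro ⟨b1, b2⟩
        obtain ⟨b3, b4, -⟩ := (a2 y).1 b1
        exact (a3 y b3 b4 0 le_rfl (by linarith)).2 ((k.bd y b3).1 b2)
      · intro e
        have b1 := a1.subset (Or.inl e)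
        obtain ⟨b3, b4, -⟩ := (a2 y).1 b1
        exact ⟨b1, (k.bd y b3).2 ((a3 y b3 b4 0 le_rfl (by linarith)).1 e)⟩
  · have h0 : 0 < z 2 := h0
    obtain ⟨r, hr, hrr, hrz⟩ : ∃ r, 0 < r ∧ r ≤ r0 ∧ r < z 2 :=
      ⟨min r0 (z 2 / 2), lt_min hr0 (by linarith), min_le_left _ _,
        (min_le_right _ _).trans_lt (by linarith)⟩
    obtain ⟨a1, a2, a3⟩ := key r (z 2 - r) hr hrr (by linarith) le_rfl (by linarith)
    have e1 : k.e.g '' segment ℝ (![z 0, z 1, z 2 - r] : V) ![z 0, z 1, z 2 + r] \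
        {k.e.g ![z 0, z 1, z 2 - r], k.e.g ![z 0, z 1, z 2 + r]} =
        {y | y ∈ k.O ∧ k.e.f y ∈ ball z r} ∩ c := by
      ext y
      constructor
      · rintro ⟨b1, b2⟩
        obtain ⟨b3, b4, b5, b6⟩ := (a2 y).1 b1
        have b7 : k.e.f y 2 ≠ z 2 + r := fun e =>
          b2 (Or.inr ((a3 y b3 b4 _ (by linarith) le_rfl).2 e))
        have b8 : k.e.f y 2 ≠ z 2 - r := fun e =>
          b2 (Or.inl ((a3 y b3 b4 _ le_rfl (by linarith)).2 e))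
        exact ⟨⟨b3, (hball r hr y b3 b4).2 (abs_lt.2 ⟨by have := lt_of_le_of_ne b5 b8.symm; linarith,
          by have := lt_of_le_of_ne b6 b7; linarith⟩)⟩, b4⟩
      · rintro ⟨⟨b1, b2⟩, b3⟩
        have b4 := abs_lt.1 ((hball r hr y b1 b3).1 b2)
        refine ⟨(a2 y).2 ⟨b1, b3, by linarith, by linarith⟩, ?_⟩
        rintro (e | e)
        · have := (a3 y b1 b3 _ le_rfl (by linarith)).1 e; linarith
        · have := (a3 y b1 b3 _ (by linarith) le_rfl).1 e; linarith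
    refine ⟨_, _, _, a1, fun y hy => ((a2 y).1 hy).2.1, Or.inl ⟨?_, ?_, ?_⟩⟩
    · rw [e1]; exact ⟨⟨hxO, mem_ball_self hr⟩, hx⟩
    · rw [e1]; exact (k.rOpen_box z r).inter_sub hcW
    · rw [disjoint_left]
      intro y hy hd
      obtain ⟨b3, -, b5, -⟩ := (a2 y).1 hy
      have := (k.bd y b3).1 hd
      linarith

theorem Crv.inter {c D : Set E} (h : Crv dW c) (hc : c ⊆ D) : Crv (D ∩ dW) c := by
  rcases h with ⟨h, hd⟩ | ⟨p, q, h, hi⟩
  · exact Or.inl ⟨h, hd.mono_right inter_subset_right⟩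
  · exact Or.inr ⟨p, q, h, by rw [← inter_assoc, inter_eq_left.2 hc, hi]⟩

/-- boxes with connected slices -/
theorem box_slices {l m : E → ℝ} {x : E} (k : Ch W dW) (hx : x ∈ k.O)
    (hk : ∀ y ∈ k.O, k.e.f y 0 = l y ∧ k.e.f y 1 = m y) (hl : l x = 0) (hm : m x = 0)
    {A : Set E} (hA : A ∈ 𝓝[W] x) : ∃ B, ROpen W B ∧ x ∈ B ∧ B ⊆ A ∧
      ∀ᶠ p in 𝓝 (0 : ℝ × ℝ), ((B ∩ (fun y => (l y, m y)) ⁻¹' {p}).Nonempty ∧
        IsPreconnected (B ∩ (fun y => (l y, m y)) ⁻¹' {p})) ∧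
        (x ∈ dW → ∃ y ∈ B ∩ dW, l y = p.1 ∧ m y = p.2) := by
  obtain ⟨r, hr, hb⟩ := k.exists_box hx hA
  refine ⟨_, k.rOpen_box (k.e.f x) r, ⟨hx, mem_ball_self hr⟩, fun y hy => ?_, ?_⟩
  · rw [← k.e.li y hy.1]; exact (hb _ ⟨ball_subset_closedBall hy.2, k.nonneg hy.1⟩).2
  · filter_upwards [ball_mem_nhds (0 : ℝ × ℝ) hr] with p hp
    rw [mem_ball_zero_iff, Prod.norm_def, max_lt_iff] at hp
    have e : {y | y ∈ k.O ∧ k.e.f y ∈ ball (k.e.f x) r} ∩ (fun y => (l y, m y)) ⁻¹' {p} =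
        {y | y ∈ k.O ∧ k.e.f y ∈ ball (k.e.f x) r ∧
          k.e.f y ∈ {w : V | w 0 = p.1} ∩ {w : V | w 1 = p.2}} := by
      ext y
      constructor
      · rintro ⟨⟨h1, h2⟩, h3⟩
        obtain rfl : (l y, m y) = p := h3
        exact ⟨h1, h2, hk y h1⟩
      · rintro ⟨h1, h2, h3, h4⟩
        exact ⟨⟨h1, h2⟩, Prod.ext ((hk y h1).1.symm.trans h3) ((hk y h1).2.symm.trans h4)⟩
    have hw : (![p.1, p.2, k.e.f x 2] : V) ∈ ball (k.e.f x) r := by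
      rw [mem_ball3 hr]
      intro i; fin_cases i
      · simpa [(hk x hx).1, hl] using hp.1
      · simpa [(hk x hx).2, hm] using hp.2
      · simpa using hr
    have hw' := (hb _ ⟨ball_subset_closedBall hw, k.nonneg hx⟩).1
    have h1 := hk _ (k.e.mg hw')
    rw [k.e.ri _ hw'] at h1
    have h2 : k.e.g ![p.1, p.2, k.e.f x 2] ∈ {y | y ∈ k.O ∧ k.e.f y ∈ ball (k.e.f x) r} :=
      ⟨k.e.mg hw', by rw [k.e.ri _ hw']; exact hw⟩
    refine ⟨⟨⟨_, h2, Prod.ext h1.1.symm h1.2.symm⟩, ?_⟩, fun hd => ⟨_, ⟨h2, ?_⟩, h1.1.symm, h1.2.symm⟩⟩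
    · rw [e]
      exact k.box_pre (fun y hy => (hb y hy).1) ((convex_eq 0 _).inter (convex_eq 1 _))
    · rw [k.bd _ h2.1, k.e.ri _ hw']; exact (k.bd x hx).1 hd

/-- the local hypothesis of `side` -/
theorem side_loc {l m : E → ℝ} {x : E} {U c : Set E} (k : Ch W dW) (hx : x ∈ k.O)
    (hk : ∀ y ∈ k.O, y ∈ U ∧ k.e.f y 0 = l y ∧ k.e.f y 1 = m y)
    (hc : ∀ y ∈ k.O, y ∈ c ↔ l y = 0 ∧ m y = 0) :
    ∃ N ∈ 𝓝[W] x, (∀ y ∈ N ∩ {y | y ∈ U ∧ l y = 0}, y ∈ c ↔ m y = 0) ∧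
      IsPreconnected {y | y ∈ N ∩ {y | y ∈ U ∧ l y = 0} ∧ 0 < m y} ∧
      IsPreconnected {y | y ∈ N ∩ {y | y ∈ U ∧ l y = 0} ∧ m y < 0} := by
  obtain ⟨r, hr, hb⟩ := k.exists_box hx univ_mem
  refine ⟨_, (k.rOpen_box (k.e.f x) r).mem ⟨hx, mem_ball_self hr⟩, fun y hy => ?_, ?_, ?_⟩
  · rw [hc y hy.1.1]; exact ⟨fun h => h.2, fun h => ⟨hy.2.2, h⟩⟩
  · convert k.box_pre (fun y hy => (hb y hy).1) ((convex_eq 0 0).inter (convex_gt 1 0)) using 1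
    ext y
    exact ⟨fun h => ⟨h.1.1.1, h.1.1.2, (hk y h.1.1.1).2.1.trans h.1.2.2,
        by show 0 < k.e.f y 1; rw [(hk y h.1.1.1).2.2]; exact h.2⟩,
      fun h => ⟨⟨⟨h.1, h.2.1⟩, (hk y h.1).1, (hk y h.1).2.1.symm.trans h.2.2.1⟩,
        (hk y h.1).2.2 ▸ h.2.2.2⟩⟩
  · convert k.box_pre (fun y hy => (hb y hy).1) ((convex_eq 0 0).inter (convex_lt 1 0)) using 1
    ext y
    exact ⟨fun h => ⟨h.1.1.1, h.1.1.2, (hk y h.1.1.1).2.1.trans h.1.2.2,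
        by show k.e.f y 1 < 0; rw [(hk y h.1.1.1).2.2]; exact h.2⟩,
      fun h => ⟨⟨⟨h.1, h.2.1⟩, (hk y h.1).1, (hk y h.1).2.1.symm.trans h.2.2.1⟩,
        (hk y h.1).2.2 ▸ h.2.2.2⟩⟩

variable {Γ : Type} [Group Γ] {G : Set E} {c : E → E → Γ} {U : Set E} {l : E → ℝ} {η : ℝ}
  {t : E → E}

theorem Fam.rOpen_int (h : Fam W dW G c U l η) : ROpen W (U \ dW) := by
  refine rOpen_of (sdiff_subset.trans h.sub) fun x hx => ?_
  obtain ⟨k, h1, h2, -⟩ := h.ch x hx.1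
  exact mem_of_superset (k.rOpen_int.mem ⟨h1, hx.2⟩) (sdiff_subset_sdiff_left h2)

/-- the involution as a PL equivalence -/
def Inv.eqv (h : Inv W dW G c t) : PLEquiv W W := ⟨t, t, h.pl, h.pl, h.maps, h.maps, h.inv, h.inv⟩

theorem Inv.image (h : Inv W dW G c t) {A : Set E} (hA : A ⊆ W) :
    t '' A = {x | x ∈ W ∧ t x ∈ A} := by
  ext x
  constructor
  · rintro ⟨y, hy, rfl⟩
    exact ⟨h.maps (hA hy), by rw [h.inv y (hA hy)]; exact hy⟩
  · exact fun hx => ⟨_, hx.2, h.inv x hx.1⟩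

theorem Inv.bd' (h : Inv W dW G c t) {x : E} (hx : x ∈ W) (h1 : t x ∈ dW) : x ∈ dW := by
  rw [← h.inv x hx]; exact h.bd h1

/-- transport of a family along the involution -/
theorem Fam.tr (h : Fam W dW G c U l η) (hI : Inv W dW G c t) :
    Fam W dW G c {x | x ∈ W ∧ t x ∈ U} (fun x => l (t x)) η := by
  refine ⟨h.pos, fun x hx => ?_, fun a ha => ?_, fun a ha => ?_⟩
  · obtain ⟨k, h1, h2, h3⟩ := h.ch _ hx.2
    exact ⟨k.tr t hI.pl hI.maps hI.inv hI.bd, ⟨hx.1, h1⟩, fun y hy => ⟨hy.1, h2 hy.2⟩,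
      fun y hy => h3 _ hy.2⟩
  · have hs : {x | x ∈ U ∧ |l x| ≤ a} ⊆ W := fun x hx => h.sub hx.1
    have := (h.cpt a ha).image_of_continuousOn (hI.pl.1.mono hs)
    rw [hI.image hs] at this
    convert this using 1
    ext x; simp only [mem_ofPred_eq, and_assoc]
  · obtain ⟨h1, h2, h3, h4⟩ := h.ess a ha
    have e1 : {x | x ∈ {x | x ∈ W ∧ t x ∈ U} ∧ l (t x) = a} = t '' {x | x ∈ U ∧ l x = a} := by
      rw [hI.image h2]; ext x; simp only [mem_ofPred_eq, and_assoc]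
    have e2 : t '' {x | x ∈ U ∧ l x = a} ∩ dW = t '' ({x | x ∈ U ∧ l x = a} ∩ dW) := by
      rw [hI.image h2, hI.image (inter_subset_left.trans h2)]
      ext x
      exact ⟨fun h => ⟨h.1.1, h.1.2, hI.bd h.2⟩, fun h => ⟨⟨h.1, h.2.1⟩, hI.bd' h.1 h.2.2⟩⟩
    rw [e1]
    refine ⟨?_, ?_, ?_, ?_⟩
    · rw [e2]; exact h1.map (hI.eqv.restrImage h2)
    · rintro _ ⟨x, hx, rfl⟩; exact hI.maps (h2 hx)
    · rw [e2]; rintro _ ⟨x, hx, rfl⟩; exact hI.mapsG (h3 hx)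
    · rw [e2]
      rintro ⟨b, hb⟩
      refine h4 ⟨_, (hb.comp (hI.pl.1.mono (inter_subset_left.trans h2))
        (mapsTo_image _ _)).congr fun x hx => ?_⟩
      filter_upwards [self_mem_nhdsWithin] with y hy
      exact hI.coc x (h3 hx) y (h3 hy)

end Crest.Agent.X212.Dsc4
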