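import Crest.Agent.X212.Dsc4.Defs
import Crest.Agent.R096.Cb6_609

/-!
# X212 / T layer, descent step: the Props of the split (helper4)
-/

set_option autoImplicit false

open Set Metric Topology

namespace Crest.Agent.X212.Dsc4

open Crest.Agent.R096.Ce_537
open Crest.Agent.R096.Pl (S1)
open Crest.Agent.X212.Lev33 (Coc Prim)

section

variable {E : Type} [NormedAddCommGroup E] [NormedSpace ℝ E]

/-- the double set of the level `0` -/
def Dbl (U : Set E) (l : E → ℝ) (t : E → E) : Set E :=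
  {x | x ∈ U ∧ t x ∈ U ∧ l x = 0 ∧ l (t x) = 0}

/-- a chart whose first two coordinates are `l` and `l ∘ t` -/
def Ch2 (W dW U : Set E) (l : E → ℝ) (t : E → E) (x : E) : Prop :=
  ∃ k : Ch W dW, x ∈ k.O ∧ ∀ y ∈ k.O, y ∈ U ∧ t y ∈ U ∧ k.e.f y 0 = l y ∧ k.e.f y 1 = l (t y)

/-- transversality of the level `0` and its image -/
def Tr (W dW U : Set E) (l : E → ℝ) (t : E → E) : Prop := ∀ x ∈ Dbl U l t, Ch2 W dW U l t x

/-- `C` is a disjoint union of at most `n` continua -/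
def Cnt (C : Set E) (n : ℕ) : Prop :=
  ∃ 𝒞 : Finset (Set E), 𝒞.card ≤ n ∧ (∀ c ∈ 𝒞, IsCompact c ∧ IsPreconnected c) ∧
    (∀ c ∈ 𝒞, ∀ c' ∈ 𝒞, c ≠ c' → Disjoint c c') ∧ ⋃₀ (𝒞 : Set (Set E)) = C

end

/-- **(ONE)** compact connected PL one-manifolds with boundary `c ∩ B` -/
def OneStmt : Prop := ∀ (E : Type) [NormedAddCommGroup E] [NormedSpace ℝ E] [FiniteDimensional ℝ E]
  (c B : Set E), IsCompact c → IsPreconnected c → c.Nonempty →
  (∀ x ∈ c, ∃ A p q, IsBall 1 A {p, q} ∧ A ⊆ c ∧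
    ((x ∈ A \ {p, q} ∧ ROpen c (A \ {p, q}) ∧ Disjoint A B) ∨
      (x ∈ A \ {q} ∧ ROpen c (A \ {q}) ∧ A ∩ B = {p}))) →
  (Nonempty (PLEquiv (S1 ℝ) c) ∧ Disjoint c B) ∨ ∃ p q, IsBall 1 c {p, q} ∧ c ∩ B = {p, q}

/-- **(GP)** general position -/
def GPStmt : Prop := ∀ (E : Type) [NormedAddCommGroup E] [NormedSpace ℝ E] [FiniteDimensional ℝ E]
  (Γ : Type) [Group Γ] (W dW G : Set E) (c : E → E → Γ) (t : E → E) (U : Set E) (l : E → ℝ) (η : ℝ),
  dW ⊆ W → G ⊆ dW → Coc G c → Inv W dW G c t → Fam W dW G c U l η →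
  ∃ U' l' η', Fam W dW G c U' l' η' ∧ Tr W dW U' l' t

/-- **(STEP)** one surgery -/
def StepStmt : Prop := ∀ (E : Type) [NormedAddCommGroup E] [NormedSpace ℝ E] [FiniteDimensional ℝ E]
  (Γ : Type) [Group Γ] (W dW G : Set E) (c : E → E → Γ) (t : E → E) (U : Set E) (l : E → ℝ) (η : ℝ)
  (n : ℕ), dW ⊆ W → G ⊆ dW → Coc G c → Inv W dW G c t → Fam W dW G c U l η → Tr W dW U l t →
  (Dbl U l t).Nonempty → Cnt (Dbl U l t) (n + 1) →
  ∃ U' l' η', Fam W dW G c U' l' η' ∧ Tr W dW U' l' t ∧ Cnt (Dbl U' l' t) n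

/-- **(FAM)** an essential disc is the zero level of a family -/
def FamStmt : Prop := ∀ (E : Type) [NormedAddCommGroup E] [NormedSpace ℝ E] [FiniteDimensional ℝ E]
  (Γ : Type) [Group Γ] (W dW G : Set E) (c : E → E → Γ) (D : Set E),
  MfE W dW → ROpen dW G → Coc G c → Ess W dW G c D → ∃ U l η, Fam W dW G c U l η

end Crest.Agent.X212.Dsc4
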