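import Crest.Agent.X212.Dsc4.Setup
import Crest.Agent.X212.Lad50.One
import Crest.Agent.X212.Lad50.Fam
import Crest.Agent.X212.Gp83.Main
import Crest.Agent.X212.Thk1.Main

/-!
# X212 / T layer: the descent step of the loop theorem (helper4)
-/

set_option autoImplicit false
set_option linter.unusedSectionVars false

open Set Metric Topology Filter

namespace Crest.Agent.X212.Dsc4

open Crest.Agent.X212.Lev33 (Coc Prim)

theorem stepStmt : StepStmt := by
  intro E _ _ _ Γ _ W dW G c t U l η n _ _ hc hI hF hT hne hn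
  have one := Lad50.oneStmt
  obtain ⟨N, s, s', μ, lam, ε, hs, hs', h, he, hC, ⟨t1, t2, t3⟩ | ⟨t1, t2, t3⟩⟩ :=
    setup one hc hI hF hT hne hn
  · have := h.pos
    refine h.fin hI hs hs' (fun _ => rfl) (fun _ => rfl) he t3 hC (a := ε / 4) (b := ε / 2)
      (κ := ε / 8) (by linarith) (by linarith) (by linarith) (by linarith) fun u hu => ?_
    obtain ⟨h1, h2⟩ := abs_lt.1 hu
    exact h.ess_circ one t1 t2 (by linarith) (by linarith) (by linarith) (by linarith)
  have := h.pos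
  by_cases hx : ∃ u, |u| < ε / 16 ∧ ∃ β, Prim ((hf U (fun x => s * l x) μ (ε / 4 + u) (ε / 2 + u) ∪
    hf {x | x ∈ W ∧ t x ∈ U} (fun x => s' * l (t x)) lam (ε / 2 + u) (ε / 4 + u)) ∩ dW) c β
  · obtain ⟨u, hu, hp⟩ := hx
    obtain ⟨h1, h2⟩ := abs_lt.1 hu
    obtain ⟨δ, hδ, h3, h4⟩ := ((h.triv_open hc (abs_le.2 ⟨by linarith, by linarith⟩)
      (abs_le.2 ⟨by linarith, by linarith⟩) hp).and
      (Ioo_mem_nhdsGT (show (0 : ℝ) < ε / 16 by linarith))).exists
    have h' := h.neg he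
    refine h'.fin hI hs (s' := -s') (by rw [neg_mul_neg, hs']) (fun _ => rfl) (fun _ => by ring)
      (fun x a1 a2 a3 a4 => he x a1 a2 a3 (by rwa [neg_one_mul, abs_neg] at a4))
      (fun x a1 a2 => (t3 x a1 a2).elim) hC (a := ε / 4 + u) (b := ε / 2 + u) h3 (by linarith)
      (by linarith) (by linarith) fun v hv => ?_
    obtain ⟨h5, h6⟩ := abs_lt.1 hv
    have a1 : |ε / 4 + u + v| ≤ ε := abs_le.2 ⟨by linarith, by linarith⟩
    have a2 : |ε / 2 + u + v| ≤ ε := abs_le.2 ⟨by linarith, by linarith⟩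
    refine ⟨(h'.ball_arc one (fun a b ha hb => ?_) (by linarith) (by linarith) (by linarith)
      (by linarith)).1, h'.subW, h'.subG a1 a2, h.rect one he t1 t2 (by linarith) (by linarith)
        (by linarith) (by linarith) (hδ v hv.le a1 a2)⟩
    obtain ⟨x, hx, hd⟩ := t1 a (-b) ha (by rwa [abs_neg])
    exact ⟨x, ⟨hx.1, hx.2.1, by linarith [hx.2.2]⟩, hd⟩
  · refine h.fin hI hs hs' (fun _ => rfl) (fun _ => rfl) he (fun x a1 a2 => (t3 x a1 a2).elim) hC
      (a := ε / 4) (b := ε / 2) (κ := ε / 16) (by linarith) (by linarith) (by linarith)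
      (by linarith) fun u hu => ?_
    obtain ⟨h1, h2⟩ := abs_lt.1 hu
    exact ⟨(h.ball_arc one t1 (by linarith) (by linarith) (by linarith) (by linarith)).1, h.subW,
      h.subG (abs_le.2 ⟨by linarith, by linarith⟩) (abs_le.2 ⟨by linarith, by linarith⟩),
      fun hp => hx ⟨u, hu, hp⟩⟩

variable {E : Type} [NormedAddCommGroup E] [NormedSpace ℝ E] {W dW : Set E}
  {Γ : Type} [Group Γ] {G : Set E} {c : E → E → Γ} {U : Set E} {l : E → ℝ} {η : ℝ} {t : E → E}

/-- the double set has finitely many components -/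
theorem exists_cnt (hI : Inv W dW G c t) (hF : Fam W dW G c U l η) (hT : Tr W dW U l t) :
    ∃ n, Cnt (Dbl U l t) n := by
  classical
  have h0 : |(0 : ℝ)| < η := by simpa using hF.pos
  have hK : IsCompact (Dbl U l t) := by
    convert (hF.ess 0 h0).1.isCompact.inter_right ((hF.tr hI).ess 0 h0).1.isClosed using 1
    ext x
    exact ⟨fun h => ⟨⟨h.1, h.2.2.1⟩, ⟨hF.sub h.1, h.2.1⟩, h.2.2.2⟩,
      fun h => ⟨h.1.1, h.2.1.2, h.1.2, h.2.2⟩⟩
  have h1 : ∀ x ∈ Dbl U l t, ∃ A, IsOpen A ∧ x ∈ A ∧ IsPreconnected (A ∩ Dbl U l t) := by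
    intro x hx
    obtain ⟨k, a1, a2⟩ := hT x hx
    obtain ⟨B, ⟨A, hA, rfl⟩, c2, c3, c4⟩ := box_slices (m := fun x => l (t x)) k a1
      (fun y hy => (a2 y hy).2.2) hx.2.2.1 hx.2.2.2 (k.opn.mem a1)
    refine ⟨A, hA, c2.1, ?_⟩
    convert c4.self_of_nhds.1.2 using 1
    ext y
    exact ⟨fun h => ⟨⟨h.1, hF.sub h.2.1⟩, Prod.ext h.2.2.2.1 h.2.2.2.2⟩,
      fun h => ⟨h.1.1, (a2 y (c3 h.1)).1, (a2 y (c3 h.1)).2.1, Prod.ext_iff.1 h.2⟩⟩
  choose! A hA hxA hp using h1
  obtain ⟨T, hT, hcov⟩ := hK.elim_nhds_subcover A fun x hx => (hA x hx).mem_nhds (hxA x hx)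
  refine ⟨_, T.image (connectedComponentIn (Dbl U l t)), le_rfl, fun z hz => ?_,
    fun z hz z' hz' hne => ?_, ?_⟩
  · obtain ⟨x, hx, rfl⟩ := Finset.mem_image.1 hz
    refine ⟨hK.of_isClosed_subset (isClosed_of_closure_subset ?_) (connectedComponentIn_subset _ _),
      isPreconnected_connectedComponentIn⟩
    exact isPreconnected_connectedComponentIn.closure.subset_connectedComponentIn
      (subset_closure (mem_connectedComponentIn (hT x hx)))
      (closure_minimal (connectedComponentIn_subset _ _) hK.isClosed)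
  · obtain ⟨x, -, rfl⟩ := Finset.mem_image.1 hz
    obtain ⟨x', -, rfl⟩ := Finset.mem_image.1 hz'
    exact disjoint_left.2 fun y a1 a2 =>
      hne ((connectedComponentIn_eq a1).trans (connectedComponentIn_eq a2).symm)
  · ext y
    constructor
    · rintro ⟨z, hz, hy⟩
      obtain ⟨x, -, rfl⟩ := Finset.mem_image.1 hz
      exact connectedComponentIn_subset _ _ hy
    · intro hy
      obtain ⟨x, hx, hyx⟩ := mem_iUnion₂.1 (hcov hy)
      exact ⟨_, Finset.mem_image.2 ⟨x, hx, rfl⟩, (hp x (hT x hx)).subset_connectedComponentIn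
        ⟨hxA x (hT x hx), hT x hx⟩ inter_subset_right ⟨hyx, hy⟩⟩

/-- **(DESC)** -/
theorem desc : Desc := by
  intro E _ _ _ Γ _ W dW G c t D hM hG hc hI hD
  have key : ∀ n U l η, Fam W dW G c U l η → Tr W dW U l t → Cnt (Dbl U l t) n →
      ∃ D', Ess W dW G c D' ∧ Disjoint D' (t '' D') := by
    have base : ∀ U l η, Fam W dW G c U l η → ¬ (Dbl U l t).Nonempty →
        ∃ D', Ess W dW G c D' ∧ Disjoint D' (t '' D') := by
      intro U l η hF h
      refine ⟨_, hF.ess 0 (by simpa using hF.pos), disjoint_left.2 ?_⟩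
      rintro _ h1 ⟨x, hx, rfl⟩
      exact h ⟨x, hx.1, h1.1, hx.2, h1.2⟩
    intro n
    induction n with
    | zero =>
      rintro U l η hF - ⟨𝒞, h1, -, -, h2⟩
      refine base U l η hF ?_
      rw [← h2, Finset.card_eq_zero.1 (Nat.le_zero.1 h1)]
      simp
    | succ n ih =>
      intro U l η hF hT hn
      by_cases h : (Dbl U l t).Nonempty
      · obtain ⟨U', l', η', a1, a2, a3⟩ :=
          stepStmt E Γ W dW G c t U l η n hM.1 hG.sub hc hI hF hT h hn
        exact ih U' l' η' a1 a2 a3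
      · exact base U l η hF h
  obtain ⟨U, l, η, hF⟩ := Lad50.fam_of Thk1.thickE E Γ W dW G c D hM hG hc hD
  obtain ⟨U', l', η', hF', hT⟩ := Gp83.gpStmt E Γ W dW G c t U l η hM.1 hG.sub hc hI hF
  obtain ⟨n, hn⟩ := exists_cnt hI hF' hT
  exact key n U' l' η' hF' hT hn

end Crest.Agent.X212.Dsc4
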