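import Crest.Agent.X212.Dsc4.Sg

/-!
# X212 / T layer, descent step: the pasted family (helper4)
-/

set_option autoImplicit false
set_option linter.unusedSectionVars false

open Set Metric Topology Filter

namespace Crest.Agent.X212.Dsc4

open Crest.Agent.R096 Crest.Agent.R096.Ce_537 Crest.Agent.R096.Cb_609
open Crest.Agent.X212.Prd34 (V up)
open Crest.Agent.X212.Lev33 (Coc Prim)

variable {E : Type} [NormedAddCommGroup E] [NormedSpace ℝ E] {W dW : Set E}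
  {Γ : Type} [Group Γ] {G : Set E} {c : E → E → Γ} {U U' N : Set E} {l m μ lam : E → ℝ}
  {ε η a b κ r u : ℝ}

/-- one half of the domain of the pasted family -/
def pt (U : Set E) (l μ : E → ℝ) (a b ε κ : ℝ) : Set E :=
  {x | x ∈ U ∧ 0 < l x ∧ l x < ε ∧ 0 < μ x ∧ (l x - a < κ ∨ μ x - b < κ)}

namespace Sg

variable (h : Sg W dW G c U U' N l m μ lam ε η)
include h

theorem pt_opn : ROpen W (pt U l μ a b ε κ) := by
  have := h.f1.rOpen.sep (f := fun x => (l x, μ x)) (h.f1.cont.prodMk h.c1.continuousOn)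
    (A := {p : ℝ × ℝ | 0 < p.1 ∧ p.1 < ε ∧ 0 < p.2 ∧ (p.1 - a < κ ∨ p.2 - b < κ)})
    ((isOpen_lt continuous_const continuous_fst).inter ((isOpen_lt continuous_fst
      continuous_const).inter ((isOpen_lt continuous_const continuous_snd).inter
        ((isOpen_lt (continuous_fst.sub continuous_const) continuous_const).union
          (isOpen_lt (continuous_snd.sub continuous_const) continuous_const)))))
  exact this

theorem pt_N {x : E} (hx : x ∈ pt U l μ a b ε κ) (h1 : μ x ≤ ε) : x ∈ N :=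
  h.n1 x hx.1 (by rw [abs_of_pos hx.2.1]; exact hx.2.2.1.le) (by rwa [abs_of_pos hx.2.2.2.1])

theorem pt_lt : ROpen W {x | x ∈ pt U l μ a b ε κ ∧ l x - a < μ x - b} := by
  have := (h.pt_opn (a := a) (b := b) (κ := κ)).sep (f := fun x => (l x, μ x))
    ((h.f1.cont.mono fun x hx => hx.1).prodMk h.c1.continuousOn)
    (A := {p : ℝ × ℝ | p.1 - a < p.2 - b}) (isOpen_lt (by fun_prop) (by fun_prop))
  exact this

theorem pt_ch (hb : b + κ ≤ ε) {x : E} (hx : x ∈ pt U l μ a b ε κ) : ∃ k : Ch W dW, x ∈ k.O ∧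
    k.O ⊆ pt U l μ a b ε κ ∧ ∀ y ∈ k.O, k.e.f y 0 = min (l y - a) (μ y - b) := by
  by_cases hN : x ∈ N
  · obtain ⟨k, h1, h2⟩ := h.ch x hN
    refine ⟨((k.post (affH 1 1 a b (one_mul 1) (one_mul 1)) fun _ => rfl).post minH
      fun _ => rfl).restr _ (h.opn.inter h.pt_opn), ⟨h1, hN, hx⟩, fun y hy => hy.2.2,
      fun y hy => ?_⟩
    show min (1 * k.e.f y 0 - a) (1 * k.e.f y 1 - b) = _
    rw [(h2 y hy.1).1, (h2 y hy.1).2, (h.on y hy.2.1).2.2.1, one_mul, one_mul]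
  · have h0 : ε < μ x := not_le.1 fun e => hN (h.pt_N hx e)
    obtain ⟨k, h1, -, h2⟩ := h.f1.ch x hx.1
    refine ⟨(k.post (affH 1 1 a 0 (one_mul 1) (one_mul 1)) fun _ => rfl).restr _ h.pt_lt,
      ⟨h1, hx, ?_⟩, fun y hy => hy.2.1, fun y hy => ?_⟩
    · rcases hx.2.2.2.2 with e | e <;> linarith
    · show 1 * k.e.f y 0 - a = _
      rw [h2 y hy.1, one_mul, min_eq_left hy.2.2.le]

theorem cpt_K (ha : κ ≤ a) (ha' : a + κ ≤ ε) (hr : r < κ) :
    IsCompact {x | x ∈ U ∧ |l x - a| ≤ r ∧ b - r ≤ μ x} := by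
  have := cpt_sep (h.f1.cpt ε h.lt) (f := fun x => (l x, μ x))
    ((h.f1.cont.mono fun x hx => hx.1).prodMk h.c1.continuousOn)
    (T := {p : ℝ × ℝ | |p.1 - a| ≤ r ∧ b - r ≤ p.2})
    ((isClosed_le (continuous_fst.sub continuous_const).abs continuous_const).inter
      (isClosed_le continuous_const continuous_snd))
  convert this using 1
  ext x
  refine ⟨fun hx => ⟨⟨hx.1, ?_⟩, hx.2⟩, fun hx => ⟨hx.1.1, hx.2⟩⟩
  have := abs_le.1 hx.2.1
  rw [abs_le]; constructor <;> linarith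

theorem slab_sub (hb : b + κ ≤ ε) (hr : r < κ) {x : E} (hx : x ∈ pt U l μ a b ε κ)
    (h1 : |min (l x - a) (μ x - b)| ≤ r) : x ∈ {x | x ∈ U ∧ |l x - a| ≤ r ∧ b - r ≤ μ x} ∪
      {x | x ∈ U' ∧ |m x - b| ≤ r ∧ a - r ≤ lam x} := by
  obtain ⟨h2, h3⟩ := abs_le.1 h1
  obtain ⟨h4, h5⟩ := le_min_iff.1 h2
  rcases min_le_iff.1 h3 with h6 | h6
  · exact Or.inl ⟨hx.1, abs_le.2 ⟨h4, h6⟩, by linarith⟩
  · obtain ⟨-, a1, a2, a3⟩ := h.on x (h.pt_N hx (by linarith))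
    exact Or.inr ⟨a1, a2 ▸ abs_le.2 ⟨h5, h6⟩, by linarith⟩

omit h in
theorem sub_slab (ha : κ ≤ a) (ha' : a + κ ≤ ε) (hb : κ ≤ b) (hr : r < κ) {x : E} (hx : x ∈ U)
    (h1 : |l x - a| ≤ r) (h2 : b - r ≤ μ x) :
    x ∈ pt U l μ a b ε κ ∧ |min (l x - a) (μ x - b)| ≤ r := by
  obtain ⟨h3, h4⟩ := abs_le.1 h1
  exact ⟨⟨hx, by linarith, by linarith, by linarith, Or.inl (by linarith)⟩,
    abs_le.2 ⟨le_min h3 (by linarith), (min_le_left _ _).trans h4⟩⟩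

theorem lev_sub (hb : b + κ ≤ ε) (hu : |u| < κ) {x : E} (hx : x ∈ pt U l μ a b ε κ)
    (h1 : min (l x - a) (μ x - b) = u) :
    x ∈ hf U l μ (a + u) (b + u) ∪ hf U' m lam (b + u) (a + u) := by
  obtain ⟨h4, h5⟩ := le_min_iff.1 h1.ge
  rcases min_le_iff.1 h1.le with h6 | h6
  · exact Or.inl ⟨hx.1, by linarith, by linarith⟩
  · obtain ⟨-, a1, a2, a3⟩ := h.on x (h.pt_N hx (by linarith [(abs_lt.1 hu).2]))
    exact Or.inr ⟨a1, by linarith, by linarith⟩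

omit h in
theorem sub_lev (ha : κ ≤ a) (ha' : a + κ ≤ ε) (hb : κ ≤ b) (hu : |u| < κ) {x : E}
    (hx : x ∈ hf U l μ (a + u) (b + u)) : x ∈ pt U l μ a b ε κ ∧ min (l x - a) (μ x - b) = u := by
  obtain ⟨h3, h4⟩ := abs_lt.1 hu
  obtain ⟨h5, h6, h7⟩ := hx
  exact ⟨⟨h5, by linarith, by linarith, by linarith, Or.inl (by linarith)⟩,
    by rw [min_eq_left (by linarith)]; linarith⟩

/-- **the pasted family** -/
theorem new (hκ : 0 < κ) (ha : κ ≤ a) (ha' : a + κ ≤ ε) (hb : κ ≤ b) (hb' : b + κ ≤ ε)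
    (ess : ∀ u, |u| < κ → Ess W dW G c (hf U l μ (a + u) (b + u) ∪ hf U' m lam (b + u) (a + u))) :
    ∃ U₁ ν O, Fam W dW G c U₁ ν κ ∧
      (∀ x, x ∈ U₁ ∧ ν x = 0 ↔ x ∈ hf U l μ a b ∪ hf U' m lam b a) ∧ ROpen W O ∧
      (∀ x ∈ O, x ∈ U₁ ∧ ν x = l x - a) ∧ ∀ x ∈ U, l x = a → b < μ x → x ∈ O := by
  classical
  let ν : E → ℝ := fun x => if x ∈ pt U l μ a b ε κ then min (l x - a) (μ x - b) else
    min (m x - b) (lam x - a)
  have e1 : ∀ x ∈ pt U l μ a b ε κ, ν x = min (l x - a) (μ x - b) := fun x hx => if_pos hx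
  have e2 : ∀ x ∈ pt U' m lam b a ε κ, ν x = min (m x - b) (lam x - a) := by
    intro x hx
    by_cases h1 : x ∈ pt U l μ a b ε κ
    · obtain ⟨-, -, a2, a3⟩ := h.on x (h.n3 x h1.1 hx.1 (by rw [abs_of_pos h1.2.1]; exact h1.2.2.1.le)
        (by rw [abs_of_pos hx.2.1]; exact hx.2.2.1.le) h1.2.2.2.1.le hx.2.2.2.1.le)
      rw [e1 x h1, a2, a3, min_comm]
    · exact if_neg h1
  have lev : ∀ u, |u| < κ → {x | x ∈ pt U l μ a b ε κ ∪ pt U' m lam b a ε κ ∧ ν x = u} =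
      hf U l μ (a + u) (b + u) ∪ hf U' m lam (b + u) (a + u) := by
    intro u hu
    ext x
    constructor
    · rintro ⟨hx | hx, h1⟩
      · exact h.lev_sub hb' hu hx (e1 x hx ▸ h1)
      · exact (h.symm.lev_sub ha' hu hx (e2 x hx ▸ h1)).symm
    · rintro (hx | hx)
      · obtain ⟨a1, a2⟩ := sub_lev ha ha' hb hu hx
        exact ⟨Or.inl a1, (e1 x a1).trans a2⟩
      · obtain ⟨a1, a2⟩ := sub_lev hb hb' ha hu hx
        exact ⟨Or.inr a1, (e2 x a1).trans a2⟩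
  refine ⟨pt U l μ a b ε κ ∪ pt U' m lam b a ε κ, ν, _, ⟨hκ, ?_, fun r hr => ?_, fun u hu => ?_⟩,
    fun x => ?_, h.pt_lt (a := a) (b := b) (κ := κ), fun x hx => ⟨Or.inl hx.1, ?_⟩,
    fun x hx h1 h2 => ⟨⟨hx, by linarith, by linarith, by linarith, Or.inl (by linarith)⟩, by linarith⟩⟩
  · rintro x (hx | hx)
    · obtain ⟨k, a1, a2, a3⟩ := h.pt_ch hb' hx
      exact ⟨k, a1, a2.trans subset_union_left, fun y hy => (a3 y hy).trans (e1 y (a2 hy)).symm⟩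
    · obtain ⟨k, a1, a2, a3⟩ := h.symm.pt_ch ha' hx
      exact ⟨k, a1, a2.trans subset_union_right, fun y hy => (a3 y hy).trans (e2 y (a2 hy)).symm⟩
  · convert (h.cpt_K (b := b) ha ha' hr).union (h.symm.cpt_K (b := a) hb hb' hr) using 1
    ext x
    constructor
    · rintro ⟨hx | hx, h1⟩
      · exact h.slab_sub hb' hr hx (e1 x hx ▸ h1)
      · exact (h.symm.slab_sub ha' hr hx (e2 x hx ▸ h1)).symm
    · rintro (hx | hx)
      · obtain ⟨a1, a2⟩ := sub_slab ha ha' hb hr hx.1 hx.2.1 hx.2.2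
        exact ⟨Or.inl a1, (e1 x a1).symm ▸ a2⟩
      · obtain ⟨a1, a2⟩ := sub_slab hb hb' ha hr hx.1 hx.2.1 hx.2.2
        exact ⟨Or.inr a1, (e2 x a1).symm ▸ a2⟩
  · rw [lev u hu]; exact ess u hu
  · have := Set.ext_iff.1 (lev 0 (by simpa using hκ)) x
    rwa [add_zero, add_zero] at this
  · rw [e1 x hx.1, min_eq_left hx.2.le]

end Sg

end Crest.Agent.X212.Dsc4
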