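import Crest.Agent.X212.Dsc4.Cnt

/-!
# X212 / T layer, descent step: the data of one surgery (helper4)
-/

set_option autoImplicit false
set_option linter.unusedSectionVars false

open Set Metric Topology Filter

namespace Crest.Agent.X212.Dsc4

open Crest.Agent.R096 Crest.Agent.R096.Ce_537 Crest.Agent.R096.Cb_609
open Crest.Agent.X212.Prd34 (V up)
open Crest.Agent.X212.Lev33 (Coc Prim)

theorem ev_box {P : ℝ × ℝ → Prop} (h : ∀ᶠ p in 𝓝 (0 : ℝ × ℝ), P p) :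
    ∀ᶠ ε in 𝓝[>] (0 : ℝ), ∀ a b, |a| ≤ ε → |b| ≤ ε → P (a, b) := by
  obtain ⟨r, hr, hb⟩ := Metric.mem_nhds_iff.1 h
  filter_upwards [Ioo_mem_nhdsGT hr] with ε hε a b h1 h2
  refine hb ?_
  rw [mem_ball_zero_iff, Prod.norm_def, max_lt_iff]
  exact ⟨h1.trans_lt hε.2, h2.trans_lt hε.2⟩

variable {E : Type} [NormedAddCommGroup E] [NormedSpace ℝ E] {W dW : Set E}
  {Γ : Type} [Group Γ] {G : Set E} {c : E → E → Γ} {U : Set E} {l : E → ℝ}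
  {η : ℝ} {t : E → E} {n : ℕ}

theorem ev_thick {A B : Set E} (hA : IsCompact A) (hB : IsClosed B) (h : Disjoint A B) :
    ∀ᶠ δ in 𝓝[>] (0 : ℝ), Disjoint (thickening δ A) (thickening δ B) := by
  obtain ⟨r, hr, hd⟩ := h.exists_thickenings hA hB
  filter_upwards [Ioo_mem_nhdsGT hr] with δ hδ
  exact hd.mono (thickening_mono hδ.2.le _) (thickening_mono hδ.2.le _)

theorem Fam.slab_mem (h : Fam W dW G c U l η) {x : E} (hx : x ∈ U) (hl : l x = 0) :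
    {x | x ∈ U ∧ |l x| ≤ η / 2} ∈ 𝓝[W] x :=
  mem_of_superset ((h.rOpen.sep h.cont.abs (isOpen_Iio (a := η / 2))).mem
    ⟨hx, by simp [hl, h.pos]⟩) fun _ hy => ⟨hy.1, le_of_lt hy.2⟩

/-- the system of double curves -/
structure Sys (W dW U : Set E) (l : E → ℝ) (t : E → E) (𝒞 : Finset (Set E)) (δ : ℝ) : Prop where
  pos : 0 < δ
  cpt : ∀ j ∈ 𝒞, IsCompact j
  crv : ∀ j ∈ 𝒞, Crv dW j
  mem : ∀ x, x ∈ Dbl U l t ↔ ∃ j ∈ 𝒞, x ∈ j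
  dis : ∀ i ∈ 𝒞, ∀ j ∈ 𝒞, i ≠ j → Disjoint (thickening δ i) (thickening δ j)
  loc : ∀ j ∈ 𝒞, ∀ x ∈ j, ∃ k : Ch W dW, x ∈ k.O ∧ (∀ y ∈ k.O, y ∈ U ∧ t y ∈ U ∧
    k.e.f y 0 = l y ∧ k.e.f y 1 = l (t y)) ∧ ∀ y ∈ k.O, y ∈ j ↔ l y = 0 ∧ l (t y) = 0

theorem exists_sys [FiniteDimensional ℝ E] (one : OneStmt) (hT : Tr W dW U l t)
    (hn : Cnt (Dbl U l t) n) : ∃ 𝒞 δ, 𝒞.card ≤ n ∧ Sys W dW U l t 𝒞 δ := by
  classical
  obtain ⟨𝒞₀, hcard, h1, h2, h3⟩ := hn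
  have hm : ∀ {j}, j ∈ 𝒞₀.filter Set.Nonempty ↔ j ∈ 𝒞₀ ∧ j.Nonempty := Finset.mem_filter
  have mem : ∀ x, x ∈ Dbl U l t ↔ ∃ j ∈ 𝒞₀.filter Set.Nonempty, x ∈ j := fun x => by
    rw [← h3]
    exact ⟨fun ⟨j, a, b⟩ => ⟨j, hm.2 ⟨a, x, b⟩, b⟩, fun ⟨j, a, b⟩ => ⟨j, (hm.1 a).1, b⟩⟩
  have : ∀ᶠ δ in 𝓝[>] (0 : ℝ), ∀ i ∈ 𝒞₀, ∀ j ∈ 𝒞₀, i ≠ j →
      Disjoint (thickening δ i) (thickening δ j) :=
    (eventually_all_finset _).2 fun i hi => (eventually_all_finset _).2 fun j hj =>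
      eventually_imp_distrib_left.2 fun hij =>
        ev_thick (h1 i hi).1 (h1 j hj).1.isClosed (h2 i hi j hj hij)
  obtain ⟨δ, hd, hδ⟩ := (this.and self_mem_nhdsWithin).exists
  have loc : ∀ j ∈ 𝒞₀.filter Set.Nonempty, ∀ x ∈ j, ∃ k : Ch W dW, x ∈ k.O ∧
      (∀ y ∈ k.O, y ∈ U ∧ t y ∈ U ∧ k.e.f y 0 = l y ∧ k.e.f y 1 = l (t y)) ∧
      ∀ y ∈ k.O, y ∈ j ↔ l y = 0 ∧ l (t y) = 0 := by
    intro j hj x hx
    obtain ⟨k, a1, a2⟩ := hT x ((mem x).2 ⟨j, hj, hx⟩)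
    refine ⟨k.restr _ ⟨thickening δ j, isOpen_thickening, rfl⟩,
      ⟨a1, self_subset_thickening hδ j hx, k.sub a1⟩, fun y hy => a2 y hy.1, fun y hy =>
        ⟨fun e => ((mem y).2 ⟨j, hj, e⟩).2.2, fun e => ?_⟩⟩
    obtain ⟨i, hi, b⟩ := (mem y).1 ⟨(a2 y hy.1).1, (a2 y hy.1).2.1, e⟩
    by_contra h4
    exact disjoint_left.1 (hd i (hm.1 hi).1 j (hm.1 hj).1 fun e => h4 (e ▸ b))
      (self_subset_thickening hδ i b) hy.2.1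
  refine ⟨𝒞₀.filter Set.Nonempty, δ, (Finset.card_filter_le _ _).trans hcard, hδ,
    fun j hj => (h1 j (hm.1 hj).1).1, fun j hj => ?_, mem,
    fun i hi j hj => hd i (hm.1 hi).1 j (hm.1 hj).1, loc⟩
  refine crv_of_ch (W := W) one (h1 j (hm.1 hj).1).1 (h1 j (hm.1 hj).1).2 (hm.1 hj).2 (fun x hx => ?_)
    fun x hx => ?_
  · obtain ⟨k, a1, -⟩ := loc j hj x hx
    exact k.sub a1
  · obtain ⟨k, a1, a2, a3⟩ := loc j hj x hx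
    refine ⟨k, a1, fun y hy => ?_⟩
    rw [a3 y hy, (a2 y hy).2.2.1, (a2 y hy).2.2.2, (a2 x a1).2.2.1, (a2 x a1).2.2.2,
      ((a3 x a1).1 hx).1, ((a3 x a1).1 hx).2]

namespace Sys

variable {𝒞 : Finset (Set E)} {δ : ℝ} (h : Sys W dW U l t 𝒞 δ) {j : Set E}
include h

theorem dbl (hj : j ∈ 𝒞) : j ⊆ Dbl U l t := fun x hx => (h.mem x).2 ⟨j, hj, hx⟩

theorem sub (hj : j ∈ 𝒞) : j ⊆ W := fun x hx => by
  obtain ⟨k, a1, -⟩ := h.loc j hj x hx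
  exact k.sub a1

theorem ch2 (hj : j ∈ 𝒞) {x : E} (hx : x ∈ j) :
    thickening δ j ∩ {y | Ch2 W dW U l t y} ∈ 𝓝[W] x := by
  obtain ⟨k, a1, a2, -⟩ := h.loc j hj x hx
  exact inter_mem (mem_nhdsWithin_of_mem_nhds (isOpen_thickening.mem_nhds
    (self_subset_thickening h.pos j hx))) (mem_of_superset (k.opn.mem a1) fun y hy => ⟨k, hy, a2⟩)

theorem nb (hj : j ∈ 𝒞) {A : Set E} (hA : ∀ x ∈ j, A ∈ 𝓝[W] x) : ∃ O, ROpen W O ∧ j ⊆ O ∧ O ⊆ A ∧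
    ∀ᶠ ε in 𝓝[>] (0 : ℝ), ∀ a b, |a| ≤ ε → |b| ≤ ε → (fb O l (fun x => l (t x)) a b).Nonempty ∧
      IsPreconnected (fb O l (fun x => l (t x)) a b) := by
  obtain ⟨O, a1, a2, a3, a4⟩ := levconn (F := 𝓝 (0 : ℝ × ℝ)) (Φ := fun y => (l y, l (t y)))
    (h.cpt j hj) (h.crv j hj).pre (h.crv j hj).ne (h.sub hj) (fun x hx A hA => by
      obtain ⟨k, b1, b2, b3⟩ := h.loc j hj x hx
      obtain ⟨B, c1, c2, c3, c4⟩ := box_slices (m := fun x => l (t x)) k b1 (fun y hy => (b2 y hy).2.2)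
        ((b3 x b1).1 hx).1 ((b3 x b1).1 hx).2 hA
      exact ⟨B, c1, c2, c3, c4.mono fun p hp => hp.1⟩) hA
  refine ⟨O, a1, a2, a3, (ev_box a4).mono fun ε hε a b ha hb => ?_⟩
  have e : fb O l (fun x => l (t x)) a b = O ∩ (fun y => (l y, l (t y))) ⁻¹' {(a, b)} := by
    ext x; exact ⟨fun h => ⟨h.1, Prod.ext h.2.1 h.2.2⟩, fun h => ⟨h.1, Prod.ext_iff.1 h.2⟩⟩
  rw [e]; exact hε a b ha hb

/-- a double curve is invariant or moved off itself -/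
theorem dich (hI : Inv W dW G c t) (hU : U ⊆ W) (hj : j ∈ 𝒞) : MapsTo t j j ∨
    ∃ T, (∀ x ∈ j, T ∈ 𝓝[W] x) ∧ ∀ x ∈ T, t x ∉ T := by
  have ht : ∀ x ∈ j, ∃ i ∈ 𝒞, t x ∈ i := fun x hx => by
    obtain ⟨a1, a2, a3, a4⟩ := h.dbl hj hx
    have := hI.inv x (hU a1)
    exact (h.mem _).1 ⟨a2, this.symm ▸ a1, a4, this.symm ▸ a3⟩
  have hV : IsOpen (⋃ i ∈ {i | i ∈ 𝒞 ∧ i ≠ j}, thickening δ i) :=
    isOpen_biUnion fun _ _ => isOpen_thickening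
  have hd : Disjoint (thickening δ j) (⋃ i ∈ {i | i ∈ 𝒞 ∧ i ≠ j}, thickening δ i) :=
    disjoint_iUnion₂_right.2 fun i hi => h.dis j hj i hi.1 hi.2.symm
  have hs : ∀ x ∈ j, t x ∈ j ∨ t x ∈ ⋃ i ∈ {i | i ∈ 𝒞 ∧ i ≠ j}, thickening δ i := fun x hx => by
    obtain ⟨i, a1, a2⟩ := ht x hx
    by_cases e : i = j
    · exact Or.inl (e ▸ a2)
    · exact Or.inr (mem_biUnion (show i ∈ {i | i ∈ 𝒞 ∧ i ≠ j} from ⟨a1, e⟩)
        (self_subset_thickening h.pos i a2))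
  rcases ((h.crv j hj).pre.image t (hI.pl.1.mono (h.sub hj))).subset_or_subset isOpen_thickening hV hd
    (by rintro _ ⟨x, hx, rfl⟩; exact (hs x hx).imp_left (self_subset_thickening h.pos j ·))
    with h1 | h1
  · exact Or.inl fun x hx => (hs x hx).resolve_right fun e => disjoint_left.1 hd (h1 ⟨x, hx, rfl⟩) e
  · exact Or.inr ⟨_, fun x hx => (((rOpen_self W).sep hI.pl.1 hV).inter_open isOpen_thickening).mem
      ⟨⟨h.sub hj hx, h1 ⟨x, hx, rfl⟩⟩, self_subset_thickening h.pos j hx⟩,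
        fun x hx e => disjoint_left.1 hd e.2 hx.1.2⟩

end Sys

theorem setup [FiniteDimensional ℝ E] (one : OneStmt) (hc : Coc G c) (hI : Inv W dW G c t)
    (hF : Fam W dW G c U l η) (hT : Tr W dW U l t) (hne : (Dbl U l t).Nonempty)
    (hn : Cnt (Dbl U l t) (n + 1)) : ∃ (N : Set E) (s s' : ℝ) (μ lam : E → ℝ) (ε : ℝ),
    s * s = 1 ∧ s' * s' = 1 ∧ Sg W dW G c U {x | x ∈ W ∧ t x ∈ U} N (fun x => s * l x)
      (fun x => s' * l (t x)) μ lam ε η ∧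
    (∀ x ∈ U, x ∈ {x | x ∈ W ∧ t x ∈ U} → |s * l x| ≤ ε → |s' * l (t x)| ≤ ε → 0 ≤ lam x → x ∈ N) ∧
    Cov W dW U N l t ε n ∧
    (((∀ x ∈ U, x ∈ dW → |s * l x| ≤ ε → ε < μ x) ∧
      (∀ x ∈ {x | x ∈ W ∧ t x ∈ U}, x ∈ dW → |s' * l (t x)| ≤ ε → lam x < -ε) ∧
      ∀ x ∈ N, t x ∈ N → s' = -s) ∨
    ((∀ a b, |a| ≤ ε → |b| ≤ ε →
        (fb N (fun x => s * l x) (fun x => s' * l (t x)) a b ∩ dW).Nonempty) ∧
      (∃ β, Prim {x | x ∈ {x | x ∈ W ∧ t x ∈ U} ∧ x ∈ dW ∧ |s' * l (t x)| ≤ ε ∧ 0 ≤ lam x} c β) ∧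
      ∀ x ∈ N, t x ∉ N)) := by
  classical
  obtain ⟨𝒞, δ, hcard, h⟩ := exists_sys one hT hn
  have hF' := hF.tr hI
  have h0 : |(0 : ℝ)| < η := by simpa using hF.pos
  have hη : η / 2 < η := by linarith [hF.pos]
  obtain ⟨hD, hDW, -⟩ := hF.ess 0 h0
  obtain ⟨hD', hDW', hG', -⟩ := hF'.ess 0 h0
  have sD : ∀ j ∈ 𝒞, j ⊆ {x | x ∈ U ∧ l x = 0} := fun j hj x hx =>
    ⟨(h.dbl hj hx).1, (h.dbl hj hx).2.2.1⟩
  have sD' : ∀ j ∈ 𝒞, j ⊆ {x | x ∈ {x | x ∈ W ∧ t x ∈ U} ∧ l (t x) = 0} := fun j hj x hx =>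
    ⟨⟨h.sub hj hx, (h.dbl hj hx).2.1⟩, (h.dbl hj hx).2.2.2⟩
  obtain ⟨c0, hc0, d, d', ad, hin⟩ := innermost hD' 𝒞
    (by obtain ⟨x, hx⟩ := hne; obtain ⟨j, hj, -⟩ := (h.mem x).1 hx; exact ⟨j, hj⟩)
    (fun j hj => ⟨(h.crv j hj).inter (sD' j hj), sD' j hj⟩) fun i hi j hj e =>
      (h.dis i hi j hj e).mono (self_subset_thickening h.pos i) (self_subset_thickening h.pos j)
  have k0 := h.crv c0 hc0
  obtain ⟨A, B, aD⟩ := (k0.inter (sD c0 hc0)).exists_adm hD (sD c0 hc0)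
  have cS := hF.cpt _ hη
  have cS' := hF'.cpt _ hη
  have lS : ContinuousOn l {x | x ∈ U ∧ |l x| ≤ η / 2} := hF.cont.mono fun x hx => hx.1
  have lS' : ContinuousOn (fun x => l (t x)) {x | x ∈ {x | x ∈ W ∧ t x ∈ U} ∧ |l (t x)| ≤ η / 2} :=
    hF'.cont.mono fun x hx => hx.1
  obtain ⟨s', N₁, μ, hs', oN₁, cN₁, cμ, eμ, eB, eA⟩ := side hD.isCompact hDW aD.cut.symm k0.pre aD.clQ
    aD.clP cS' (fun x hx => hF'.slab_mem (sD' c0 hc0 hx).1 (sD' c0 hc0 hx).2) lS' fun x hx => by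
      obtain ⟨k, a1, a2, a3⟩ := h.loc c0 hc0 x hx
      exact side_loc k a1 (fun y hy => ⟨(a2 y hy).1, (a2 y hy).2.2⟩) a3
  obtain ⟨s, N₂, lam, hs, oN₂, cN₂, cl, el, ed, ed'⟩ := side hD'.isCompact hDW' ad.cut k0.pre ad.clP
    ad.clQ cS (fun x hx => hF.slab_mem (sD c0 hc0 hx).1 (sD c0 hc0 hx).2) lS fun x hx => by
      obtain ⟨k, a1, a2, a3⟩ := h.loc c0 hc0 x hx
      exact side_loc (l := fun x => l (t x)) (m := l) (k.post swpH fun _ => rfl) a1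
        (fun y hy => ⟨⟨k.sub hy, (a2 y hy).2.1⟩, (a2 y hy).2.2.2, (a2 y hy).2.2.1⟩)
        fun y hy => (a3 y hy).trans and_comm
  obtain ⟨T, hT1, hT2⟩ : ∃ T, (∀ x ∈ c0, T ∈ 𝓝[W] x) ∧
      ∀ x ∈ T, t x ∈ T → Disjoint c0 dW ∧ s' = -s := by
    rcases h.dich hI hF.sub hc0 with h1 | ⟨T, h1, h2⟩
    swap
    · exact ⟨T, h1, fun x hx e => (h2 x hx e).elim⟩
    refine ⟨univ, fun _ _ => univ_mem, fun _ _ _ => ?_⟩
    rcases k0 with ⟨k1, k2⟩ | ⟨p, q, k1, -⟩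
    swap
    · obtain ⟨x, hx, e⟩ := arc_fix k1 (hI.pl.1.mono (h.sub hc0)) h1
      exact (hI.free x (h.sub hc0 hx) e).elim
    refine ⟨k2, ?_⟩
    have dW' : d ⊆ W := ad.cut.subP.trans hDW'
    have b1 : IsBall 2 (t '' d) (t '' c0) := (ad.cut.circ hD' k1 (k2.mono_right inter_subset_right)
      (ad.out (k2.mono_right inter_subset_right))).map (hI.eqv.restrImage dW')
    rw [show t '' c0 = c0 from Subset.antisymm h1.image_subset fun x hx =>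
      ⟨t x, h1 hx, hI.inv x (h.sub hc0 hx)⟩] at b1
    obtain ⟨A₀, B₀, -, -, -, -, u1, u2⟩ := circ_cut hD k1 (sD c0 hc0) (k2.mono_right inter_subset_right)
    have b2 : t '' d = A := (u2 _ b1 (by
      rintro _ ⟨y, hy, rfl⟩; exact ⟨(ad.cut.subP hy).1.2, (ad.cut.subP hy).2⟩)).trans
      (u1 A B aD.cut (aD.out (k2.mono_right inter_subset_right))).1.symm
    obtain ⟨x, hx⟩ := circ_ne k1
    obtain ⟨O, hO, e⟩ := oN₂.inter ((rOpen_self W).preim hI.pl.1 hI.maps oN₁)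
    obtain ⟨y, y1, y2, y3⟩ := mem_closure_iff.1 (ad.clP hx) O hO
      (e ▸ ⟨cN₂ hx, h.sub hc0 hx, cN₁ (h1 hx)⟩ : x ∈ O ∩ W).1
    obtain ⟨y4, -, y5⟩ : y ∈ N₂ ∩ {x | x ∈ W ∧ t x ∈ N₁} := e ▸ ⟨y1, dW' y2⟩
    have y6 : 0 < lam y := not_le.1 fun e => y3 (ad.cut.mem y2 (ed' ▸ ⟨ad.cut.subP y2, e⟩))
    have y7 : μ (t y) ≤ 0 := (eA ▸ (b2 ▸ ⟨y, y2, rfl⟩ : t y ∈ A) : t y ∈ {x | _ ∧ μ x ≤ 0}).2
    rw [eμ _ y5, hI.inv y (dW' y2)] at y7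
    rw [el y y4] at y6
    have : (s' - s) * (s' + s) = 0 := by linarith
    rcases mul_eq_zero.1 this with e | e
    · rw [sub_eq_zero.1 e] at y7; linarith
    · linarith
  obtain ⟨N, oN, cN, sN, evN⟩ := h.nb hc0 fun x hx => inter_mem (h.ch2 hc0 hx)
    (inter_mem (inter_mem (oN₁.mem (cN₁ hx)) (oN₂.mem (cN₂ hx))) (hT1 x hx))
  choose! O oO cO sO evO using fun j (hj : j ∈ 𝒞) => h.nb hj fun x hx => h.ch2 hj hx
  have SW : {x | x ∈ U ∧ |l x| ≤ η / 2} ⊆ W := fun x hx => hF.sub hx.1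
  have SW' : {x | x ∈ {x | x ∈ W ∧ t x ∈ U} ∧ |l (t x)| ≤ η / 2} ⊆ W := fun x hx => hx.1.1
  have cK := cS.inter_right cS'.isClosed
  have lK := (lS.mono inter_subset_left).abs.sup (lS'.mono (inter_subset_right
    (s := {x | x ∈ U ∧ |l x| ≤ η / 2}))).abs
  have v1 := shrink cS SW (φ := fun x => max |l x| |μ x|) (lS.abs.sup cμ.continuousOn.abs) oN
    fun x hx e => by
      rw [max_le_iff, abs_nonpos_iff, abs_nonpos_iff] at e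
      exact cN (aD.cut.mem (eA ▸ ⟨⟨hx.1, e.1⟩, e.2.le⟩) (eB ▸ ⟨⟨hx.1, e.1⟩, e.2.ge⟩))
  have v2 := shrink cS' SW' (φ := fun x => max |l (t x)| |lam x|) (lS'.abs.sup cl.continuousOn.abs) oN
    fun x hx e => by
      rw [max_le_iff, abs_nonpos_iff, abs_nonpos_iff] at e
      exact cN (ad.cut.mem (ed ▸ ⟨⟨hx.1, e.1⟩, e.2.ge⟩) (ed' ▸ ⟨⟨hx.1, e.1⟩, e.2.le⟩))
  have v3 := shrink cK (inter_subset_left.trans SW)
    (φ := fun x => max (max |l x| |l (t x)|) (-lam x)) (lK.sup cl.neg.continuousOn) oN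
    fun x hx e => by
      rw [max_le_iff, max_le_iff, abs_nonpos_iff, abs_nonpos_iff] at e
      obtain ⟨j, hj, hxj⟩ := (h.mem x).1 ⟨hx.1.1, hx.2.1.2, e.1⟩
      by_contra h1
      exact disjoint_left.1 (hin j hj fun e => h1 (cN (e ▸ hxj)))
        (ed ▸ ⟨⟨hx.2.1, e.1.2⟩, by linarith [e.2]⟩) hxj
  have v4 := shrink cK (inter_subset_left.trans SW) (φ := fun x => max |l x| |l (t x)|) lK
    (oN.union (rOpen_ex (p := fun j => j ∈ 𝒞.erase c0) (O := O)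
      fun j hj => oO j (Finset.mem_of_mem_erase hj))) fun x hx e => by
      rw [max_le_iff, abs_nonpos_iff, abs_nonpos_iff] at e
      obtain ⟨j, hj, hxj⟩ := (h.mem x).1 ⟨hx.1.1, hx.2.1.2, e⟩
      by_cases h1 : j = c0
      · exact Or.inl (cN (h1 ▸ hxj))
      · exact Or.inr ⟨j, Finset.mem_erase.2 ⟨h1, hj⟩, cO j hj hxj⟩
  have v5 := (eventually_all_finset 𝒞).2 evO
  have v0 : ∀ᶠ ε in 𝓝[>] (0 : ℝ), ε ∈ Ioo 0 (η / 2) := Ioo_mem_nhdsGT (by linarith [hF.pos])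
  have efb : ∀ a b, fb N (fun x => s * l x) (fun x => s' * l (t x)) a b =
      fb N l (fun x => l (t x)) (s * a) (s' * b) := fun a b => by
    ext x; simp only [fb, mem_ofPred_eq, sgn_eq hs, sgn_eq hs']
  have v6 : ∀ᶠ ε in 𝓝[>] (0 : ℝ), ((∀ x ∈ U, x ∈ dW → |s * l x| ≤ ε → ε < μ x) ∧
      (∀ x ∈ {x | x ∈ W ∧ t x ∈ U}, x ∈ dW → |s' * l (t x)| ≤ ε → lam x < -ε) ∧
      ∀ x ∈ N, t x ∈ N → s' = -s) ∨
    ((∀ a b, |a| ≤ ε → |b| ≤ ε →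
        (fb N (fun x => s * l x) (fun x => s' * l (t x)) a b ∩ dW).Nonempty) ∧
      (∃ β, Prim {x | x ∈ {x | x ∈ W ∧ t x ∈ U} ∧ x ∈ dW ∧ |s' * l (t x)| ≤ ε ∧ 0 ≤ lam x} c β) ∧
      ∀ x ∈ N, t x ∉ N) := by
    have oE : ROpen W ∅ := ⟨∅, isOpen_empty, by simp⟩
    simp only [abs_sgn hs, abs_sgn hs']
    rcases k0 with ⟨-, k2⟩ | ⟨p, q, k1, k2⟩
    · filter_upwards [v0, shrink (hF.cpt_bd cS fun x hx => hx.1) (inter_subset_left.trans SW)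
        (φ := fun x => max |l x| (μ x)) ((lS.mono inter_subset_left).abs.sup cμ.continuousOn) oE
        fun x hx e => by
          rw [max_le_iff, abs_nonpos_iff] at e
          exact disjoint_left.1 k2 (aD.cut.mem (eA ▸ ⟨⟨hx.1.1, e.1⟩, e.2⟩)
            (aD.out (k2.mono_right inter_subset_right) ⟨⟨hx.1.1, e.1⟩, hx.2⟩)) hx.2,
        shrink (hF'.cpt_bd cS' fun x hx => hx.1) (inter_subset_left.trans SW')
        (φ := fun x => max |l (t x)| (-lam x))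
        ((lS'.mono inter_subset_left).abs.sup cl.neg.continuousOn) oE fun x hx e => by
          rw [max_le_iff, abs_nonpos_iff] at e
          exact disjoint_left.1 k2 (ad.cut.mem (ed ▸ ⟨⟨hx.1.1, e.1⟩, by linarith [e.2]⟩)
            (ad.out (k2.mono_right inter_subset_right) ⟨⟨hx.1.1, e.1⟩, hx.2⟩)) hx.2] with ε w0 w1 w2
      exact Or.inl ⟨fun x a1 a2 a3 => not_le.1 fun e => w1 x ⟨⟨a1, a3.trans w0.2.le⟩, a2⟩ (max_le a3 e),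
        fun x a1 a2 a3 => not_le.1 fun e => w2 x ⟨⟨a1, a3.trans w0.2.le⟩, a2⟩
          (max_le a3 (by linarith)), fun x a1 a2 => (hT2 x (sN a1).2.2 (sN a2).2.2).2⟩
    · obtain ⟨hp, hp'⟩ : p ∈ c0 ∩ dW := k2 ▸ Or.inl rfl
      obtain ⟨k, a1, a2, a3⟩ := h.loc c0 hc0 p hp
      obtain ⟨B', -, -, c3, c4⟩ := box_slices (m := fun x => l (t x)) k a1 (fun y hy => (a2 y hy).2.2)
        ((a3 p a1).1 hp).1 ((a3 p a1).1 hp).2 (oN.mem (cN hp))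
      have b1 := (ad.cut.arc hD' k1 (by rw [← inter_assoc, inter_eq_left.2 (sD' c0 hc0), k2])).ball₂
      have b2 := inter_subset_right.trans hG' (a := d ∩ _)
      obtain ⟨A₀, o1, o2, β, hβ⟩ := prim_nhds hc b1.isCompact b2 (prim_ball b1 hc b2)
      filter_upwards [v0, ev_box c4, shrink (hF'.cpt_bd cS' fun x hx => hx.1)
        (inter_subset_left.trans SW') (φ := fun x => max |l (t x)| (-lam x))
        ((lS'.mono inter_subset_left).abs.sup cl.neg.continuousOn) ⟨A₀, o1, rfl⟩ fun x hx e => by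
          rw [max_le_iff, abs_nonpos_iff] at e
          exact ⟨o2 ⟨ed ▸ ⟨⟨hx.1.1, e.1⟩, by linarith [e.2]⟩, ⟨hx.1.1, e.1⟩, hx.2⟩, hx.1.1.1⟩]
        with ε w0 w1 w2
      refine Or.inr ⟨fun a b ha hb => ?_, ⟨β, hβ.mono fun x hx => ⟨(w2 x ⟨⟨hx.1, hx.2.2.1.trans
        w0.2.le⟩, hx.2.1⟩ (max_le hx.2.2.1 (by linarith [hx.2.2.2, w0.1]))).1,
          hF'.memG hx.1 (hx.2.2.1.trans_lt (w0.2.trans hη)) hx.2.1⟩⟩, fun x a1 a2 =>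
            disjoint_left.1 (hT2 x (sN a1).2.2 (sN a2).2.2).1 hp hp'⟩
      obtain ⟨y, y1, y2⟩ := (w1 (s * a) (s' * b) (by rwa [abs_sgn hs]) (by rwa [abs_sgn hs'])).2 hp'
      exact ⟨y, efb a b ▸ ⟨c3 y1.1, y2⟩, y1.2⟩
  obtain ⟨ε, ⟨w0, w1, w2, w3, w4⟩, w5, w6, w7⟩ :=
    ((v0.and (v1.and (v2.and (v3.and v4)))).and (v5.and (v6.and evN))).exists
  have he : ∀ x ∈ U, x ∈ {x | x ∈ W ∧ t x ∈ U} → |s * l x| ≤ ε → |s' * l (t x)| ≤ ε → 0 ≤ lam x →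
      x ∈ N := fun x a1 a2 a3 a4 a5 => by
    rw [abs_sgn hs] at a3
    rw [abs_sgn hs'] at a4
    exact w3 x ⟨⟨a1, a3.trans w0.2.le⟩, a2, a4.trans w0.2.le⟩
      (max_le (max_le a3 a4) (by linarith [w0.1]))
  refine ⟨N, s, s', μ, lam, ε, hs, hs', ⟨hF.sgn hs, hF'.sgn hs', w0.1, w0.2.trans hη, cμ, cl, oN,
    fun x hx => ?_, fun x hx => ?_, fun x a1 a2 a3 => ?_, fun x a1 a2 a3 => ?_,
    fun x a1 a2 a3 a4 _ a5 => he x a1 a2 a3 a4 a5, fun a b ha hb => ?_⟩, he,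
    ⟨𝒞.erase c0, O, ?_, fun j hj => ?_, fun i hi j hj e => ?_, fun x a1 a2 a3 a4 => ?_⟩, w6⟩
  · obtain ⟨k, a1, a2⟩ := (sN hx).1.2
    refine ⟨k.post (affH s s' 0 0 hs hs') fun _ => rfl, a1, fun y hy => ⟨?_, ?_⟩⟩
    · show s * k.e.f y 0 - 0 = _
      rw [(a2 y hy).2.2.1, sub_zero]
    · show s' * k.e.f y 1 - 0 = _
      rw [(a2 y hy).2.2.2, sub_zero]
  · obtain ⟨k, a1, a2⟩ := (sN hx).1.2
    exact ⟨(a2 x a1).1, ⟨k.sub a1, (a2 x a1).2.1⟩, eμ x (sN hx).2.1.1, el x (sN hx).2.1.2⟩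
  · rw [abs_sgn hs] at a2
    exact w1 x ⟨a1, a2.trans w0.2.le⟩ (max_le a2 a3)
  · rw [abs_sgn hs'] at a2
    exact w2 x ⟨a1, a2.trans w0.2.le⟩ (max_le a2 a3)
  · rw [efb]; exact w7 _ _ (by rwa [abs_sgn hs]) (by rwa [abs_sgn hs'])
  · rw [Finset.card_erase_of_mem hc0]; omega
  · obtain ⟨a1, a2⟩ := Finset.mem_erase.1 hj
    exact ⟨oO j a2, (h.dis j a2 c0 hc0 a1).mono (fun x hx => (sO j a2 hx).1) fun x hx => (sN hx).1.1,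
      fun x hx => (sO j a2 hx).2, fun a ha => (w5 j a2 a a ha ha).2⟩
  · have a1 := Finset.mem_of_mem_erase hi
    have a2 := Finset.mem_of_mem_erase hj
    exact (h.dis i a1 j a2 e).mono (fun x hx => (sO i a1 hx).1) fun x hx => (sO j a2 hx).1
  · exact w4 x ⟨⟨a1, a3.trans w0.2.le⟩, ⟨hF.sub a1, a2⟩, a4.trans w0.2.le⟩ (max_le a3 a4)

end Crest.Agent.X212.Dsc4
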