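import Crest.Agent.X212.Dsc4.Fib

/-!
# X212 / T layer, descent step: cut and paste of two families along a double curve (helper4)
-/

set_option autoImplicit false
set_option linter.unusedSectionVars false

open Set Metric Topology Filter

namespace Crest.Agent.X212.Dsc4

open Crest.Agent.R096 Crest.Agent.R096.Ce_537 Crest.Agent.R096.Cb_609
open Crest.Agent.X212.Prd34 (V up)
open Crest.Agent.X212.Lev33 (Coc Prim)

variable {E : Type} [NormedAddCommGroup E] [NormedSpace ℝ E] {W dW : Set E}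
  {Γ : Type} [Group Γ] {G : Set E} {c : E → E → Γ} {U U' N : Set E} {l m μ lam : E → ℝ}
  {ε η a b : ℝ}

theorem abs_sgn {s : ℝ} (hs : s * s = 1) (u : ℝ) : |s * u| = |u| := by
  have : |s| = 1 := by
    have h1 : |s| * |s| = 1 := by rw [← abs_mul, hs, abs_one]
    nlinarith [abs_nonneg s]
  rw [abs_mul, this, one_mul]

theorem sgn_eq {s : ℝ} (hs : s * s = 1) {u v : ℝ} : s * u = v ↔ u = s * v :=
  ⟨fun h => by rw [← h, ← mul_assoc, hs, one_mul], fun h => by rw [h, ← mul_assoc, hs, one_mul]⟩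

theorem Fam.sgn (h : Fam W dW G c U l η) {s : ℝ} (hs : s * s = 1) :
    Fam W dW G c U (fun x => s * l x) η := by
  refine ⟨h.pos, fun x hx => ?_, fun a ha => ?_, fun a ha => ?_⟩
  · obtain ⟨k, h1, h2, h3⟩ := h.ch x hx
    refine ⟨k.post (affH s 1 0 0 hs (one_mul 1)) fun _ => rfl, h1, h2, fun y hy => ?_⟩
    show s * k.e.f y 0 - 0 = _
    rw [h3 y hy, sub_zero]
  · simp only [abs_sgn hs]; exact h.cpt a ha
  · simp only [sgn_eq hs]; exact h.ess _ (by rwa [abs_sgn hs])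

theorem Fam.cpt_bd (h : Fam W dW G c U l η) {K : Set E} (hK : IsCompact K) (hKU : K ⊆ U) :
    IsCompact (K ∩ dW) := by
  obtain ⟨A, hA, e⟩ := h.rOpen_int
  have : K ∩ dW = K \ A := by
    ext x
    refine ⟨fun hx => ⟨hx.1, fun h1 => ?_⟩, fun hx => ⟨hx.1, ?_⟩⟩
    · exact (e ▸ ⟨h1, h.sub (hKU hx.1)⟩ : x ∈ U \ dW).2 hx.2
    · by_contra h1
      exact hx.2 (e ▸ ⟨hKU hx.1, h1⟩ : x ∈ A ∩ W).1
  rw [this]; exact hK.diff hA

/-- primitives on balls -/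
theorem prim_ball {k : ℕ} {D B : Set E} (hD : IsBall k D B) (hc : Coc G c) (hG : D ⊆ G) :
    ∃ b, Prim D c b := by
  obtain ⟨e, -⟩ := hD
  obtain ⟨b, hb⟩ := ((hc.mono hG).comp e.pf.1 e.mf).prim_convex (convex_closedBall _ _)
  refine ⟨_, (hb.comp e.pg.1 e.mg).congr fun x hx => ?_⟩
  filter_upwards [self_mem_nhdsWithin] with y hy
  rw [e.ri x hx, e.ri y hy]

/-- a slice -/
def fb (N : Set E) (l m : E → ℝ) (a b : ℝ) : Set E := {x | x ∈ N ∧ l x = a ∧ m x = b}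

/-- a part of a level -/
def hf (U : Set E) (l μ : E → ℝ) (a b : ℝ) : Set E := {x | x ∈ U ∧ l x = a ∧ b ≤ μ x}

theorem fb_comm : fb N m l b a = fb N l m a b := by
  ext x; exact ⟨fun h => ⟨h.1, h.2.2, h.2.1⟩, fun h => ⟨h.1, h.2.2, h.2.1⟩⟩

/-- two families crossing along a curve with neighbourhood `N`, with side functions -/
structure Sg (W dW G : Set E) (c : E → E → Γ) (U U' N : Set E) (l m μ lam : E → ℝ) (ε η : ℝ) :
    Prop where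
  f1 : Fam W dW G c U l η
  f2 : Fam W dW G c U' m η
  pos : 0 < ε
  lt : ε < η
  c1 : Continuous μ
  c2 : Continuous lam
  opn : ROpen W N
  ch : ∀ x ∈ N, ∃ k : Ch W dW, x ∈ k.O ∧ ∀ y ∈ k.O, k.e.f y 0 = l y ∧ k.e.f y 1 = m y
  on : ∀ x ∈ N, x ∈ U ∧ x ∈ U' ∧ μ x = m x ∧ lam x = l x
  n1 : ∀ x ∈ U, |l x| ≤ ε → |μ x| ≤ ε → x ∈ N
  n2 : ∀ x ∈ U', |m x| ≤ ε → |lam x| ≤ ε → x ∈ N
  n3 : ∀ x ∈ U, x ∈ U' → |l x| ≤ ε → |m x| ≤ ε → 0 ≤ μ x → 0 ≤ lam x → x ∈ N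
  sl : ∀ a b, |a| ≤ ε → |b| ≤ ε → (fb N l m a b).Nonempty ∧ IsPreconnected (fb N l m a b)

namespace Sg

theorem symm (h : Sg W dW G c U U' N l m μ lam ε η) : Sg W dW G c U' U N m l lam μ ε η where
  f1 := h.f2
  f2 := h.f1
  pos := h.pos
  lt := h.lt
  c1 := h.c2
  c2 := h.c1
  opn := h.opn
  ch := fun x hx => by
    obtain ⟨k, h1, h2⟩ := h.ch x hx
    exact ⟨k.post swpH fun _ => rfl, h1, fun y hy => ⟨(h2 y hy).2, (h2 y hy).1⟩⟩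
  on := fun x hx => ⟨(h.on x hx).2.1, (h.on x hx).1, (h.on x hx).2.2.2, (h.on x hx).2.2.1⟩
  n1 := h.n2
  n2 := h.n1
  n3 := fun x h1 h2 h3 h4 h5 h6 => h.n3 x h2 h1 h4 h3 h6 h5
  sl := fun a b ha hb => fb_comm (N := N) (l := l) (m := m) ▸ h.sl b a hb ha

theorem neg (h : Sg W dW G c U U' N l m μ lam ε η)
    (he : ∀ x ∈ U, x ∈ U' → |l x| ≤ ε → |m x| ≤ ε → 0 ≤ lam x → x ∈ N) :
    Sg W dW G c U U' N l (fun x => -1 * m x) (fun x => -μ x) lam ε η where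
  f1 := h.f1
  f2 := h.f2.sgn (by norm_num)
  pos := h.pos
  lt := h.lt
  c1 := h.c1.neg
  c2 := h.c2
  opn := h.opn
  ch := fun x hx => by
    obtain ⟨k, h1, h2⟩ := h.ch x hx
    refine ⟨k.post (affH 1 (-1) 0 0 (by norm_num) (by norm_num)) fun _ => rfl, h1, fun y hy => ?_⟩
    constructor
    · show 1 * k.e.f y 0 - 0 = _
      rw [(h2 y hy).1]; ring
    · show -1 * k.e.f y 1 - 0 = _
      rw [(h2 y hy).2]; ring
  on := fun x hx => ⟨(h.on x hx).1, (h.on x hx).2.1, by rw [(h.on x hx).2.2.1]; ring,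
    (h.on x hx).2.2.2⟩
  n1 := fun x h1 h2 h3 => h.n1 x h1 h2 (by rwa [abs_neg] at h3)
  n2 := fun x h1 h2 h3 => h.n2 x h1 (by rwa [neg_one_mul, abs_neg] at h2) h3
  n3 := fun x h1 h2 h3 h4 _ h6 => he x h1 h2 h3 (by rwa [neg_one_mul, abs_neg] at h4) h6
  sl := fun a b ha hb => by
    have : fb N l (fun x => -1 * m x) a b = fb N l m a (-b) := by
      ext x
      exact ⟨fun h => ⟨h.1, h.2.1, by linarith [h.2.2]⟩, fun h => ⟨h.1, h.2.1, by linarith [h.2.2]⟩⟩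
    rw [this]; exact h.sl a (-b) ha (by rwa [abs_neg])

variable (h : Sg W dW G c U U' N l m μ lam ε η)
include h

theorem lev (ha : |a| ≤ ε) : Ess W dW G c {x | x ∈ U ∧ l x = a} := h.f1.ess a (ha.trans_lt h.lt)

theorem mem_fb (ha : |a| ≤ ε) (hb : |b| ≤ ε) {x : E} :
    x ∈ fb N l m a b ↔ x ∈ U ∧ l x = a ∧ μ x = b := by
  refine ⟨fun hx => ⟨(h.on x hx.1).1, hx.2.1, (h.on x hx.1).2.2.1.trans hx.2.2⟩, fun hx => ?_⟩
  have := h.n1 x hx.1 (hx.2.1 ▸ ha) (hx.2.2 ▸ hb)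
  exact ⟨this, hx.2.1, (h.on x this).2.2.1.symm.trans hx.2.2⟩

theorem cpt (ha : |a| ≤ ε) {T : Set ℝ} (hT : IsClosed T) :
    IsCompact {x | x ∈ U ∧ l x = a ∧ μ x ∈ T} := by
  have := cpt_sep (h.lev ha).1.isCompact h.c1.continuousOn hT
  simpa only [mem_ofPred_eq, and_assoc] using this

theorem cpt_hf (ha : |a| ≤ ε) (b : ℝ) : IsCompact (hf U l μ a b) := h.cpt ha isClosed_Ici

theorem cut (ha : |a| ≤ ε) (hb : |b| < ε) : Cut {x | x ∈ U ∧ l x = a} (fb N l m a b) (hf U l μ a b)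
    {x | x ∈ U ∧ l x = a ∧ μ x ≤ b} := by
  have hε : |ε| ≤ ε := (abs_of_pos h.pos).le
  have hε' : |-ε| ≤ ε := by rwa [abs_neg]
  have hb' := abs_lt.1 hb
  refine ⟨(h.cpt_hf ha b).isClosed, (h.cpt ha isClosed_Iic).isClosed, ?_, ?_, ?_, ?_⟩
  · ext x
    exact ⟨fun h => h.elim (fun h => ⟨h.1, h.2.1⟩) fun h => ⟨h.1, h.2.1⟩,
      fun h => (le_total b (μ x)).imp (fun e => ⟨h.1, h.2, e⟩) fun e => ⟨h.1, h.2, e⟩⟩
  · ext x
    rw [h.mem_fb ha hb.le]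
    exact ⟨fun h => ⟨h.1.1, h.1.2.1, le_antisymm h.2.2.2 h.1.2.2⟩,
      fun h => ⟨⟨h.1, h.2.1, h.2.2.ge⟩, h.1, h.2.1, h.2.2.le⟩⟩
  · obtain ⟨x, hx⟩ := (h.sl a ε ha hε).1
    rw [h.mem_fb ha hε] at hx
    exact ⟨x, ⟨hx.1, hx.2.1, by linarith [hx.2.2]⟩, fun e => by
      linarith [((h.mem_fb ha hb.le).1 e).2.2, hx.2.2]⟩
  · obtain ⟨x, hx⟩ := (h.sl a (-ε) ha hε').1
    rw [h.mem_fb ha hε'] at hx
    exact ⟨x, ⟨hx.1, hx.2.1, by linarith [hx.2.2]⟩, fun e => by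
      linarith [((h.mem_fb ha hb.le).1 e).2.2, hx.2.2]⟩

theorem crv [FiniteDimensional ℝ E] (one : OneStmt) (ha : |a| ≤ ε) (hb : |b| ≤ ε) :
    Crv dW (fb N l m a b) := by
  refine crv_of_ch one ?_ (h.sl a b ha hb).2 (h.sl a b ha hb).1 (fun x hx => h.opn.sub hx.1)
    fun x hx => ?_
  · convert h.cpt ha (isClosed_singleton (x := b)) using 1
    ext x; exact h.mem_fb ha hb
  · obtain ⟨k, h1, h2⟩ := h.ch x hx.1
    refine ⟨k.restr N h.opn, ⟨h1, hx.1⟩, fun y hy => ?_⟩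
    rw [Ch.restr_f, (h2 y hy.1).1, (h2 y hy.1).2, (h2 x h1).1, (h2 x h1).2, hx.2.1, hx.2.2]
    exact ⟨fun e => e.2, fun e => ⟨hy.2, e⟩⟩

theorem inter (ha : 0 ≤ a) (ha' : a ≤ ε) (hb : 0 ≤ b) (hb' : b ≤ ε) :
    hf U l μ a b ∩ hf U' m lam b a = fb N l m a b := by
  ext x
  refine ⟨fun ⟨h1, h2⟩ => ⟨h.n3 x h1.1 h2.1 (by rwa [h1.2.1, abs_of_nonneg ha])
    (by rwa [h2.2.1, abs_of_nonneg hb]) (hb.trans h1.2.2) (ha.trans h2.2.2), h1.2.1, h2.2.1⟩,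
    fun hx => ?_⟩
  obtain ⟨a1, a2, a3, a4⟩ := h.on x hx.1
  exact ⟨⟨a1, hx.2.1, (a3.trans hx.2.2).ge⟩, a2, hx.2.2, (a4.trans hx.2.1).ge⟩

theorem pair (ha : |a| ≤ ε) (hb : |b| < ε) {p q : E} (h1 : IsBall 1 (fb N l m a b) {p, q})
    (h2 : fb N l m a b ∩ dW = {p, q}) :
    BallPair 1 (hf U l μ a b) (fb N l m a b) (hf U l μ a b ∩ dW) {p, q} := by
  have c0 := h.cut ha hb
  have := c0.arc (h.lev ha).1 h1 (by rw [← inter_assoc, inter_eq_left.2 (c0.cP.trans c0.subP), h2])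
  rwa [← inter_assoc, inter_eq_left.2 c0.subP] at this

theorem subW : hf U l μ a b ∪ hf U' m lam b a ⊆ W :=
  union_subset (fun _ hx => h.f1.sub hx.1) fun _ hx => h.f2.sub hx.1

theorem subG (ha : |a| ≤ ε) (hb : |b| ≤ ε) : (hf U l μ a b ∪ hf U' m lam b a) ∩ dW ⊆ G := by
  rintro x ⟨hx | hx, hd⟩
  · exact h.f1.memG hx.1 (by rw [hx.2.1]; exact ha.trans_lt h.lt) hd
  · exact h.f2.memG hx.1 (by rw [hx.2.1]; exact hb.trans_lt h.lt) hd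

/-- the pasted disc, circle case -/
theorem ess_circ [FiniteDimensional ℝ E] (one : OneStmt)
    (t1 : ∀ x ∈ U, x ∈ dW → |l x| ≤ ε → ε < μ x) (t2 : ∀ x ∈ U', x ∈ dW → |m x| ≤ ε → lam x < -ε)
    (ha : 0 ≤ a) (ha' : a < ε) (hb : 0 ≤ b) (hb' : b < ε) :
    Ess W dW G c (hf U l μ a b ∪ hf U' m lam b a) := by
  have a1 : |a| < ε := by rwa [abs_of_nonneg ha]
  have b1 : |b| < ε := by rwa [abs_of_nonneg hb]
  have hd : Disjoint (fb N l m a b) dW := disjoint_left.2 fun x hx hd => by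
    have := (h.mem_fb a1.le b1.le).1 hx
    linarith [t1 x this.1 hd (this.2.1 ▸ a1.le), this.2.2]
  have hc : Nonempty (PLEquiv (Pl.S1 ℝ) (fb N l m a b)) := by
    rcases h.crv one a1.le b1.le with h1 | ⟨p, q, -, h1⟩
    · exact h1.1
    · have : p ∈ fb N l m a b ∩ dW := h1 ▸ Or.inl rfl
      exact (disjoint_left.1 hd this.1 this.2).elim
  have hΓ : {x | x ∈ U ∧ l x = a} ∩ dW ⊆ hf U l μ a b := fun x hx =>
    ⟨hx.1.1, hx.1.2, by linarith [t1 x hx.1.1 hx.2 (hx.1.2 ▸ a1.le)]⟩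
  have c1 := (h.cut a1.le b1).symm
  have c2 := h.symm.cut b1.le a1
  rw [fb_comm] at c2
  have d2 := c2.circ (h.symm.lev b1.le).1 hc (hd.mono_right inter_subset_right) fun x hx =>
    ⟨hx.1.1, hx.1.2, by linarith [t2 x hx.1.1 hx.2 (hx.1.2 ▸ b1.le)]⟩
  have d1 := c1.circ (h.lev a1.le).1 hc (hd.mono_right inter_subset_right) hΓ
  have d3 := repl (h.lev a1.le).1 c1 d1 hΓ d2 (by rw [inter_comm, h.inter ha ha'.le hb hb'.le])
  have e : (hf U l μ a b ∪ hf U' m lam b a) ∩ dW = {x | x ∈ U ∧ l x = a} ∩ dW := by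
    ext x
    refine ⟨?_, fun hx => ⟨Or.inl (hΓ hx), hx.2⟩⟩
    rintro ⟨hx | hx, hd⟩
    · exact ⟨⟨hx.1, hx.2.1⟩, hd⟩
    · linarith [t2 x hx.1 hd (hx.2.1 ▸ b1.le), hx.2.2, h.pos]
  refine ⟨?_, h.subW, h.subG a1.le b1.le, ?_⟩
  · rw [e, union_comm]; exact d3
  · rw [e]; exact (h.lev a1.le).2.2.2

/-- the pasted disc, arc case -/
theorem ball_arc [FiniteDimensional ℝ E] (one : OneStmt)
    (t1 : ∀ a b, |a| ≤ ε → |b| ≤ ε → (fb N l m a b ∩ dW).Nonempty)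
    (ha : 0 ≤ a) (ha' : a < ε) (hb : 0 ≤ b) (hb' : b < ε) :
    IsBall 2 (hf U l μ a b ∪ hf U' m lam b a) ((hf U l μ a b ∪ hf U' m lam b a) ∩ dW) ∧
      IsPreconnected (hf U' m lam b a ∩ dW) := by
  have a1 : |a| < ε := by rwa [abs_of_nonneg ha]
  have b1 : |b| < ε := by rwa [abs_of_nonneg hb]
  rcases h.crv one a1.le b1.le with h1 | ⟨p, q, h1, h2⟩
  · obtain ⟨x, hx⟩ := t1 a b a1.le b1.le
    exact (disjoint_left.1 h1.2 hx.1 hx.2).elim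
  have p1 := h.pair a1.le b1 h1 h2
  have p2 := h.symm.pair b1.le a1 (by rwa [fb_comm]) (by rwa [fb_comm])
  rw [fb_comm] at p2
  have := p1.glue p2 (h.inter ha ha'.le hb hb'.le)
  exact ⟨by rw [union_inter_distrib_right]; exact this.ball, p2.ball₂.isPreconnected⟩

/-- one of the two pasted discs is essential -/
theorem rect [FiniteDimensional ℝ E] (one : OneStmt)
    (he : ∀ x ∈ U, x ∈ U' → |l x| ≤ ε → |m x| ≤ ε → 0 ≤ lam x → x ∈ N)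
    (t1 : ∀ a b, |a| ≤ ε → |b| ≤ ε → (fb N l m a b ∩ dW).Nonempty)
    (t2 : ∃ β, Prim {x | x ∈ U' ∧ x ∈ dW ∧ |m x| ≤ ε ∧ 0 ≤ lam x} c β)
    (ha : 0 ≤ a) (ha' : a < ε) (hb : 0 < b) (hb' : b < ε)
    (h1 : ∃ β, Prim ((hf U l μ a b ∪ hf U' m lam b a) ∩ dW) c β)
    (h2 : ∃ β, Prim ((hf U l (fun x => -μ x) a b ∪ hf U' (fun x => -1 * m x) lam b a) ∩ dW) c β) :
    False := by
  have a1 : |a| ≤ ε := by rw [abs_of_nonneg ha]; exact ha'.le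
  have b1 : |b| ≤ ε := by rw [abs_of_pos hb]; exact hb'.le
  have h' := h.neg he
  obtain ⟨d1, e1⟩ := h.ball_arc one t1 ha ha' hb.le hb'
  obtain ⟨d2, e2⟩ := h'.ball_arc one (fun a b ha hb => by
    obtain ⟨x, hx, hd⟩ := t1 a (-b) ha (by rwa [abs_neg])
    exact ⟨x, ⟨hx.1, hx.2.1, by linarith [hx.2.2]⟩, hd⟩) ha ha' hb.le hb'
  let R : Set E := {x | x ∈ {x | x ∈ U' ∧ |m x| ≤ b} ∧ lam x ∈ Ici a} ∩ dW
  have cR : IsClosed R := (h.f2.cpt_bd (cpt_sep (h.f2.cpt b (hb'.trans h.lt)) h.c2.continuousOn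
    isClosed_Ici) fun x hx => hx.1.1).isClosed
  have pR : ∃ β, Prim R c β := t2.imp fun β hβ => hβ.mono fun x hx =>
    ⟨hx.1.1.1, hx.2, hx.1.1.2.trans hb'.le, ha.trans hx.1.2⟩
  have inN : ∀ x ∈ U, l x = a → x ∈ R → μ x = m x := fun x hx hl hR =>
    (h.on x (he x hx hR.1.1.1 (hl ▸ a1) (hR.1.1.2.trans hb'.le) (ha.trans hR.1.2))).2.2.1
  have g1 := prim_glue d1.isClosed_bdry cR h1 pR (by
    convert e1 using 1
    ext x
    refine ⟨?_, fun hx => ⟨⟨Or.inr hx.1, hx.2⟩, ⟨⟨hx.1.1, ?_⟩, hx.1.2.2⟩, hx.2⟩⟩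
    · rintro ⟨⟨hx | hx, hd⟩, hR⟩
      · refine ⟨⟨hR.1.1.1, le_antisymm (abs_le.1 hR.1.1.2).2 ?_, hR.1.2⟩, hd⟩
        rw [← inN x hx.1 hx.2.1 hR]; exact hx.2.2
      · exact ⟨hx, hd⟩
    · rw [hx.1.2.1, abs_of_pos hb])
  have g2 := prim_glue (d1.isClosed_bdry.union cR) d2.isClosed_bdry g1 h2 (by
    convert e2 using 1
    ext x
    refine ⟨?_, fun hx => ⟨Or.inr ⟨⟨⟨hx.1.1, ?_⟩, hx.1.2.2⟩, hx.2⟩, Or.inr hx.1, hx.2⟩⟩
    · rintro ⟨h3, hx | hx, hd⟩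
      · have hR : x ∈ R := by
          rcases h3 with ⟨h3 | h3, -⟩ | h3
          · have b2 : b ≤ -μ x := hx.2.2
            linarith [h3.2.2]
          · exact ⟨⟨⟨h3.1, by rw [h3.2.1, abs_of_pos hb]⟩, h3.2.2⟩, hd⟩
          · exact h3
        have b2 : b ≤ -μ x := hx.2.2
        exact ⟨⟨hR.1.1.1, by linarith [(abs_le.1 hR.1.1.2).1, inN x hx.1 hx.2.1 hR], hR.1.2⟩, hd⟩
      · exact ⟨hx, hd⟩
    · have b2 : -1 * m x = b := hx.1.2.1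
      rw [abs_le]; constructor <;> linarith)
  refine (h.lev a1).2.2.2 (g2.imp fun β hβ => hβ.mono fun x hx => ?_)
  rcases le_total b (μ x) with b2 | b2
  · exact Or.inl (Or.inl ⟨Or.inl ⟨hx.1.1, hx.1.2, b2⟩, hx.2⟩)
  rcases le_total b (-μ x) with b3 | b3
  · exact Or.inr ⟨Or.inl ⟨hx.1.1, hx.1.2, b3⟩, hx.2⟩
  have b4 : |μ x| ≤ b := abs_le.2 ⟨by linarith, b2⟩
  obtain ⟨-, b5, b6, b7⟩ := h.on x (h.n1 x hx.1.1 (hx.1.2 ▸ a1) (b4.trans hb'.le))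
  exact Or.inl (Or.inr ⟨⟨⟨b5, b6 ▸ b4⟩, (b7.trans hx.1.2).ge⟩, hx.2⟩)

theorem usc {A : Set E} (hA : IsOpen A) (h1 : hf U l μ a b ∩ dW ⊆ A) :
    ∀ᶠ δ in 𝓝[>] (0 : ℝ), ∀ u, |u| ≤ δ → |a + u| ≤ ε → hf U l μ (a + u) (b + u) ∩ dW ⊆ A := by
  have hK := h.f1.cpt_bd (h.f1.cpt ε h.lt) fun x hx => hx.1
  filter_upwards [shrink (W := univ) (A := A) hK (subset_univ _)
    (φ := fun x => max |l x - a| (b - μ x))
    (((h.f1.cont.mono fun x hx => hx.1.1).sub continuousOn_const).abs.sup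
      (continuousOn_const.sub h.c1.continuousOn)) ⟨A, hA, by simp⟩ fun x hx h2 => by
      rw [max_le_iff, abs_nonpos_iff] at h2
      exact h1 ⟨⟨hx.1.1, by linarith [h2.1], by linarith [h2.2]⟩, hx.2⟩] with δ hδ u hu hu' x hx
  refine hδ x ⟨⟨hx.1.1, hx.1.2.1 ▸ hu'⟩, hx.2⟩ (max_le ?_ ?_)
  · rw [hx.1.2.1]; simpa using hu
  · linarith [hx.1.2.2, (abs_le.1 hu).1]

/-- triviality of the boundary is an open condition -/
theorem triv_open (hc : Coc G c) (ha : |a| ≤ ε) (hb : |b| ≤ ε)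
    (h1 : ∃ β, Prim ((hf U l μ a b ∪ hf U' m lam b a) ∩ dW) c β) :
    ∀ᶠ δ in 𝓝[>] (0 : ℝ), ∀ u, |u| ≤ δ → |a + u| ≤ ε → |b + u| ≤ ε →
      ∃ β, Prim ((hf U l μ (a + u) (b + u) ∪ hf U' m lam (b + u) (a + u)) ∩ dW) c β := by
  have hK : IsCompact ((hf U l μ a b ∪ hf U' m lam b a) ∩ dW) := by
    rw [union_inter_distrib_right]
    exact (h.f1.cpt_bd (h.cpt_hf ha b) fun x hx => hx.1).union
      (h.f2.cpt_bd (h.symm.cpt_hf hb a) fun x hx => hx.1)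
  obtain ⟨A, hA, h2, β, hβ⟩ := prim_nhds hc hK (h.subG ha hb) h1
  filter_upwards [h.usc (a := a) (b := b) hA fun x hx => h2 ⟨Or.inl hx.1, hx.2⟩,
    h.symm.usc (a := b) (b := a) hA fun x hx => h2 ⟨Or.inr hx.1, hx.2⟩] with δ a1 a2 u hu b1 b2
  refine ⟨β, hβ.mono fun x hx => ⟨?_, h.subG b1 b2 hx⟩⟩
  exact hx.1.elim (fun e => a1 u hu b1 ⟨e, hx.2⟩) fun e => a2 u hu b2 ⟨e, hx.2⟩

end Sg

end Crest.Agent.X212.Dsc4
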