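import Crest.Agent.X212.Dsc4.Ch
import Crest.Agent.X212.Dsc4.Disc

/-!
# X212 / T layer, descent step: point set lemmas (helper4)
-/

set_option autoImplicit false
set_option linter.unusedSectionVars false

open Set Metric Topology Filter

namespace Crest.Agent.X212.Dsc4

open Crest.Agent.X212.Lev33 (Coc Prim)

section

variable {X : Type*} [TopologicalSpace X]

/-- sublevel sets of a compact set shrink into a neighbourhood of the zero set -/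
theorem shrink {W K A : Set X} (hK : IsCompact K) (hKW : K ⊆ W) {φ : X → ℝ} (hφ : ContinuousOn φ K)
    (hA : ROpen W A) (h : ∀ x ∈ K, φ x ≤ 0 → x ∈ A) : ∀ᶠ ε in 𝓝[>] (0 : ℝ), ∀ x ∈ K, φ x ≤ ε → x ∈ A := by
  obtain ⟨B, hB, rfl⟩ := hA
  have hc : IsCompact (K \ B) := hK.diff hB
  rcases (K \ B).eq_empty_or_nonempty with h0 | h0
  · refine Eventually.of_forall fun ε x hx _ => ⟨?_, hKW hx⟩
    by_contra h1
    exact (h0 ▸ ⟨hx, h1⟩ : x ∈ (∅ : Set X))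
  · obtain ⟨z, hz, hmin⟩ := hc.exists_isMinOn h0 (hφ.mono sdiff_subset)
    have hpos : 0 < φ z := not_le.1 fun h1 => hz.2 (h z hz.1 h1).1
    filter_upwards [mem_nhdsWithin_of_mem_nhds (gt_mem_nhds hpos)] with ε hε x hx h1
    refine ⟨?_, hKW hx⟩
    by_contra h2
    have : φ z ≤ φ x := hmin ⟨hx, h2⟩
    linarith

/-- nearby fibres over a continuum are connected -/
theorem levconn {P : Type*} {F : Filter P} {Z c A₀ : Set X} {Φ : X → P} (hc : IsCompact c)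
    (hpre : IsPreconnected c) (hne : c.Nonempty) (hcZ : c ⊆ Z)
    (hbox : ∀ x ∈ c, ∀ A ∈ 𝓝[Z] x, ∃ B, ROpen Z B ∧ x ∈ B ∧ B ⊆ A ∧
      ∀ᶠ p in F, (B ∩ Φ ⁻¹' {p}).Nonempty ∧ IsPreconnected (B ∩ Φ ⁻¹' {p}))
    (hA : ∀ x ∈ c, A₀ ∈ 𝓝[Z] x) : ∃ O, ROpen Z O ∧ c ⊆ O ∧ O ⊆ A₀ ∧
      ∀ᶠ p in F, (O ∩ Φ ⁻¹' {p}).Nonempty ∧ IsPreconnected (O ∩ Φ ⁻¹' {p}) := by
  classical
  choose! B hB hxB hBA hev using fun x hx => hbox x hx A₀ (hA x hx)
  choose! O hO hBO using hB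
  obtain ⟨t, htc, hcov⟩ := hc.elim_nhds_subcover O fun x hx =>
    (hO x hx).mem_nhds (hBO x hx ▸ hxB x hx : x ∈ O x ∩ Z).1
  have hrel : ∀ i ∈ t, ∀ j ∈ t, Relation.ReflTransGen
      (fun i j => (O i ∩ O j ∩ c).Nonempty ∧ i ∈ t ∧ j ∈ t) i j := by
    intro i hi j hj
    by_contra hn
    let R : X → Prop := fun j => Relation.ReflTransGen
      (fun i j => (O i ∩ O j ∩ c).Nonempty ∧ i ∈ t ∧ j ∈ t) i j
    have h1 := hpre (⋃ j ∈ {j | j ∈ t ∧ R j}, O j) (⋃ j ∈ {j | j ∈ t ∧ ¬ R j}, O j)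
      (isOpen_biUnion fun j hj => hO j (htc j hj.1)) (isOpen_biUnion fun j hj => hO j (htc j hj.1))
      (fun x hx => by
        obtain ⟨k, hk, hxk⟩ := mem_iUnion₂.1 (hcov hx)
        by_cases h : R k
        · exact Or.inl (mem_biUnion (show k ∈ {j | j ∈ t ∧ R j} from ⟨hk, h⟩) hxk)
        · exact Or.inr (mem_biUnion (show k ∈ {j | j ∈ t ∧ ¬ R j} from ⟨hk, h⟩) hxk))
      ⟨i, htc i hi, mem_biUnion (show i ∈ {j | j ∈ t ∧ R j} from ⟨hi, .refl⟩)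
        (hBO i (htc i hi) ▸ hxB i (htc i hi) : i ∈ O i ∩ Z).1⟩
      ⟨j, htc j hj, mem_biUnion (show j ∈ {j | j ∈ t ∧ ¬ R j} from ⟨hj, hn⟩)
        (hBO j (htc j hj) ▸ hxB j (htc j hj) : j ∈ O j ∩ Z).1⟩
    obtain ⟨x, hx, h2, h3⟩ := h1
    obtain ⟨a, ha, hxa⟩ := mem_iUnion₂.1 h2
    obtain ⟨b, hb, hxb⟩ := mem_iUnion₂.1 h3
    exact hb.2 (ha.2.tail ⟨⟨x, ⟨hxa, hxb⟩, hx⟩, ha.1, hb.1⟩)
  have hpair : ∀ i ∈ t, ∀ j ∈ t, ∀ᶠ p in F, (O i ∩ O j ∩ c).Nonempty →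
      (B i ∩ Φ ⁻¹' {p} ∩ (B j ∩ Φ ⁻¹' {p})).Nonempty := by
    intro i hi j hj
    by_cases h : (O i ∩ O j ∩ c).Nonempty
    · obtain ⟨x, ⟨h1, h2⟩, hx⟩ := h
      obtain ⟨B', -, -, h3, h4⟩ := hbox x hx (B i ∩ B j) (by
        rw [hBO i (htc i hi), hBO j (htc j hj)]
        exact inter_mem (ROpen.mem ⟨_, hO i (htc i hi), rfl⟩ ⟨h1, hcZ hx⟩)
          (ROpen.mem ⟨_, hO j (htc j hj), rfl⟩ ⟨h2, hcZ hx⟩))
      filter_upwards [h4] with p hp _
      obtain ⟨y, hy, hy'⟩ := hp.1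
      exact ⟨y, ⟨(h3 hy).1, hy'⟩, (h3 hy).2, hy'⟩
    · exact Eventually.of_forall fun p h' => absurd h' h
  refine ⟨⋃ i ∈ t, B i, ⟨⋃ i ∈ t, O i, isOpen_biUnion fun i hi => hO i (htc i hi), ?_⟩, ?_, ?_, ?_⟩
  · rw [iUnion₂_inter]
    exact iUnion₂_congr fun i hi => hBO i (htc i hi)
  · intro x hx
    obtain ⟨k, hk, hxk⟩ := mem_iUnion₂.1 (hcov hx)
    exact mem_biUnion hk (hBO k (htc k hk) ▸ ⟨hxk, hcZ hx⟩)
  · exact iUnion₂_subset fun i hi => hBA i (htc i hi)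
  · have e1 : ∀ᶠ p in F, ∀ i ∈ t, (B i ∩ Φ ⁻¹' {p}).Nonempty ∧ IsPreconnected (B i ∩ Φ ⁻¹' {p}) :=
      (eventually_all_finset t).2 fun i hi => hev i (htc i hi)
    have e2 : ∀ᶠ p in F, ∀ i ∈ t, ∀ j ∈ t, (O i ∩ O j ∩ c).Nonempty →
        (B i ∩ Φ ⁻¹' {p} ∩ (B j ∩ Φ ⁻¹' {p})).Nonempty :=
      (eventually_all_finset t).2 fun i hi => (eventually_all_finset t).2 fun j hj => hpair i hi j hj
    filter_upwards [e1, e2] with p h1 h2
    rw [iUnion₂_inter]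
    constructor
    · obtain ⟨x, hx⟩ := hne
      obtain ⟨k, hk, -⟩ := mem_iUnion₂.1 (hcov hx)
      obtain ⟨y, hy⟩ := (h1 k hk).1
      exact ⟨y, mem_biUnion hk hy⟩
    · refine IsPreconnected.biUnion_of_reflTransGen (t := (t : Set X))
        (s := fun i => B i ∩ Φ ⁻¹' {p}) (fun i hi => (h1 i hi).2) fun i hi j hj => ?_
      have h3 := hrel i hi j hj
      clear hj
      induction h3 with
      | refl => exact .refl
      | tail _ hab ih => exact ih.tail ⟨h2 _ hab.2.1 _ hab.2.2 hab.1, hab.2.1⟩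

variable {Γ : Type*} [Group Γ]

/-- gluing of primitives along a connected intersection -/
theorem prim_glue {A B : Set X} {c : X → X → Γ} (hA : IsClosed A) (hB : IsClosed B)
    (h1 : ∃ b, Prim A c b) (h2 : ∃ b, Prim B c b) (hi : IsPreconnected (A ∩ B)) :
    ∃ b, Prim (A ∪ B) c b := by
  classical
  obtain ⟨b, h1⟩ := h1
  obtain ⟨b', h2⟩ := h2
  obtain ⟨g, hg⟩ : ∃ g : Γ, ∀ y ∈ A ∩ B, b y = g * b' y := by
    rcases (A ∩ B).eq_empty_or_nonempty with h | ⟨x, hx⟩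
    · exact ⟨1, fun y hy => by rw [h] at hy; exact hy.elim⟩
    · exact ⟨b x * (b' x)⁻¹, fun y hy =>
        (h2.mono inter_subset_right).uniq (h1.mono inter_subset_left) hi hx hy⟩
  refine ⟨fun y => if y ∈ A then b y else g * b' y, Prim.union (Lev33.IsClosed.relCl hA B)
    (Lev33.IsClosed.relCl hB A) (h1.congr' fun y hy => by simp [hy])
    ((h2.mul_left g).congr' fun y hy => ?_)⟩
  by_cases h : y ∈ A
  · simp only [h, if_true]; exact hg y ⟨h, hy⟩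
  · simp [h]

end

section

variable {X : Type*} [PseudoMetricSpace X] {Γ : Type*} [Group Γ]

/-- a primitive on a compact set extends to a neighbourhood -/
theorem prim_nhds {G K : Set X} {c : X → X → Γ} (hc : Coc G c) (hK : IsCompact K) (hKG : K ⊆ G)
    (h : ∃ b, Prim K c b) : ∃ A, IsOpen A ∧ K ⊆ A ∧ ∃ b, Prim (A ∩ G) c b := by
  classical
  obtain ⟨b, hb⟩ := h
  have h1 : ∀ x ∈ K, ∃ r > 0, ∃ O, IsOpen O ∧ closedBall x r ⊆ O ∧ Prim (G ∩ O) c (c x) ∧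
      ∀ y ∈ K ∩ O, b y = b x * c x y := by
    intro x hx
    obtain ⟨O, hO, hxO, hp⟩ := hc.loc (hKG hx)
    obtain ⟨O', hO', hxO', hs⟩ := mem_nhdsWithin.1 (hb x hx)
    obtain ⟨r, hr, hs'⟩ := Metric.nhds_basis_closedBall.mem_iff.1 ((hO.inter hO').mem_nhds ⟨hxO, hxO'⟩)
    exact ⟨r, hr, O ∩ O', hO.inter hO', hs', hp.mono (inter_subset_inter_right _ inter_subset_left),
      fun y hy => hs ⟨hy.2.2, hy.1⟩⟩
  choose! r hr O hO hs hp he using h1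
  obtain ⟨t, htK, hcov⟩ := hK.elim_nhds_subcover (fun x => ball x (r x)) fun x hx =>
    ball_mem_nhds x (hr x hx)
  let β : X → X → Γ := fun i y => b i * c i y
  have hβ : ∀ i ∈ t, Prim (G ∩ O i) c (β i) := fun i hi => (hp i (htK i hi)).mul_left (b i)
  let A' : Set X := {y | (∃ i ∈ t, y ∈ ball i (r i)) ∧ ∀ i ∈ t, ∀ k ∈ t, y ∈ closedBall i (r i) →
    y ∈ closedBall k (r k) → β i y = β k y}
  have hA' : ∀ x ∈ K, A' ∈ 𝓝[G] x := by
    intro x hx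
    obtain ⟨i, hi, hxi⟩ := mem_iUnion₂.1 (hcov hx)
    have e1 : ∀ᶠ y in 𝓝[G] x, ∃ i ∈ t, y ∈ ball i (r i) :=
      mem_nhdsWithin_of_mem_nhds (mem_of_superset (isOpen_ball.mem_nhds hxi) fun y hy => ⟨i, hi, hy⟩)
    have e2 : ∀ᶠ y in 𝓝[G] x, ∀ i ∈ t, ∀ k ∈ t, y ∈ closedBall i (r i) →
        y ∈ closedBall k (r k) → β i y = β k y := by
      refine (eventually_all_finset t).2 fun i hi => (eventually_all_finset t).2 fun k hk => ?_
      by_cases h2 : x ∈ closedBall i (r i)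
      · by_cases h3 : x ∈ closedBall k (r k)
        · have a1 := hβ i hi x ⟨hKG hx, hs i (htK i hi) h2⟩
          have a2 := hβ k hk x ⟨hKG hx, hs k (htK k hk) h3⟩
          rw [nhdsWithin_inter_of_mem' (mem_nhdsWithin_of_mem_nhds
            ((hO i (htK i hi)).mem_nhds (hs i (htK i hi) h2)))] at a1
          rw [nhdsWithin_inter_of_mem' (mem_nhdsWithin_of_mem_nhds
            ((hO k (htK k hk)).mem_nhds (hs k (htK k hk) h3)))] at a2
          filter_upwards [a1, a2] with y b1 b2 _ _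
          rw [b1, b2]
          simp only [β]
          rw [← he i (htK i hi) x ⟨hx, hs i (htK i hi) h2⟩, ← he k (htK k hk) x ⟨hx, hs k (htK k hk) h3⟩]
        · filter_upwards [mem_nhdsWithin_of_mem_nhds (isClosed_closedBall.isOpen_compl.mem_nhds h3)]
            with y hy _ h4 using absurd h4 hy
      · filter_upwards [mem_nhdsWithin_of_mem_nhds (isClosed_closedBall.isOpen_compl.mem_nhds h2)]
          with y hy h4 using absurd h4 hy
    exact e1.and e2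
  choose! A hA hxA hAs using fun x hx => mem_nhdsWithin.1 (hA' x hx)
  have hsub : (⋃ x ∈ K, A x) ∩ G ⊆ A' := by
    rintro y ⟨hy, hyG⟩
    obtain ⟨x, hx, hyx⟩ := mem_iUnion₂.1 hy
    exact hAs x hx ⟨hyx, hyG⟩
  refine ⟨⋃ x ∈ K, A x, isOpen_biUnion hA, fun x hx => mem_biUnion hx (hxA x hx),
    fun y => if h : ∃ i ∈ t, y ∈ ball i (r i) then β h.choose y else 1, fun y hy => ?_⟩
  obtain ⟨i, hi, hyi⟩ := (hsub hy).1
  have val : ∀ z ∈ (⋃ x ∈ K, A x) ∩ G, z ∈ ball i (r i) →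
      (if h : ∃ i ∈ t, z ∈ ball i (r i) then β h.choose z else 1) = β i z := by
    intro z hz hzi
    have h : ∃ i ∈ t, z ∈ ball i (r i) := ⟨i, hi, hzi⟩
    rw [dif_pos h]
    exact (hsub hz).2 _ h.choose_spec.1 i hi (ball_subset_closedBall h.choose_spec.2)
      (ball_subset_closedBall hzi)
  have hyO := hs i (htK i hi) (ball_subset_closedBall hyi)
  have a1 := hβ i hi y ⟨hy.2, hyO⟩
  rw [nhdsWithin_inter_of_mem' (mem_nhdsWithin_of_mem_nhds ((hO i (htK i hi)).mem_nhds hyO))] at a1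
  filter_upwards [a1.filter_mono (nhdsWithin_mono y inter_subset_right), self_mem_nhdsWithin,
    mem_nhdsWithin_of_mem_nhds (isOpen_ball.mem_nhds hyi)] with z h2 h3 h4
  rw [val z h3 h4, val y hy hyi, h2]

end

variable {E : Type} [NormedAddCommGroup E] [NormedSpace ℝ E]

/-- **the side function** of a cut along the zero set of a local function `m` -/
theorem side {W K D c P Q : Set E} {m : E → ℝ} (hD : IsCompact D) (hDW : D ⊆ W) (h : Cut D c P Q)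
    (hc : IsPreconnected c) (clP : c ⊆ closure (P \ c)) (clQ : c ⊆ closure (Q \ c))
    (hK : IsCompact K) (hKn : ∀ x ∈ c, K ∈ 𝓝[W] x) (hm : ContinuousOn m K)
    (hloc : ∀ x ∈ c, ∃ N ∈ 𝓝[W] x, (∀ y ∈ N ∩ D, y ∈ c ↔ m y = 0) ∧
      IsPreconnected {y | y ∈ N ∩ D ∧ 0 < m y} ∧ IsPreconnected {y | y ∈ N ∩ D ∧ m y < 0}) :
    ∃ (s : ℝ) (N : Set E) (μ : E → ℝ), s * s = 1 ∧ ROpen W N ∧ c ⊆ N ∧ Continuous μ ∧
      (∀ x ∈ N, μ x = s * m x) ∧ P = {x | x ∈ D ∧ 0 ≤ μ x} ∧ Q = {x | x ∈ D ∧ μ x ≤ 0} := by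
  classical
  let σ : ℝ → E → Prop := fun s x => ∀ᶠ y in 𝓝[D] x,
    (y ∈ c ↔ m y = 0) ∧ (0 < s * m y → y ∈ P) ∧ (s * m y < 0 → y ∈ Q)
  have hcD : c ⊆ D := h.cP.trans h.subP
  have near : ∀ {Z : Set E}, Z ⊆ D → c ⊆ closure (Z \ c) → ∀ x ∈ c, ∀ A ∈ 𝓝[D] x,
      ∃ y ∈ A, y ∈ Z \ c := by
    intro Z hZ hcl x hx A hA
    obtain ⟨O, hO, hxO, hs⟩ := mem_nhdsWithin.1 hA
    obtain ⟨y, h1, h2⟩ := mem_closure_iff.1 (hcl hx) O hO hxO
    exact ⟨y, hs ⟨h1, hZ h2.1⟩, h2⟩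
  have hor : ∀ x ∈ c, σ 1 x ∨ σ (-1) x := by
    intro x hx
    obtain ⟨N, hN, h0, hp, hn⟩ := hloc x hx
    have hN' : N ∩ D ∈ 𝓝[D] x := inter_mem (nhdsWithin_mono x hDW hN) self_mem_nhdsWithin
    obtain ⟨yP, a1, a2⟩ := near h.subP clP x hx _ hN'
    obtain ⟨yQ, b1, b2⟩ := near h.subQ clQ x hx _ hN'
    have mP : m yP < 0 ∨ 0 < m yP := lt_or_gt_of_ne fun e => a2.2 ((h0 yP a1).2 e)
    have mQ : m yQ < 0 ∨ 0 < m yQ := lt_or_gt_of_ne fun e => b2.2 ((h0 yQ b1).2 e)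
    rcases h.split hp (fun y hy => hy.1.2) (disjoint_left.2 fun y hy h1 =>
      hy.2.ne' ((h0 y hy.1).1 h1)) with p1 | p1 <;>
    rcases h.split hn (fun y hy => hy.1.2) (disjoint_left.2 fun y hy h1 =>
      hy.2.ne ((h0 y hy.1).1 h1)) with n1 | n1
    · exact (mQ.elim (fun e => disjoint_left.1 n1.2 ⟨b1, e⟩ b2.1)
        fun e => disjoint_left.1 p1.2 ⟨b1, e⟩ b2.1).elim
    · left
      filter_upwards [hN'] with y hy
      exact ⟨h0 y hy, fun e => p1.1 ⟨hy, by linarith⟩, fun e => n1.1 ⟨hy, by linarith⟩⟩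
    · right
      filter_upwards [hN'] with y hy
      exact ⟨h0 y hy, fun e => n1.1 ⟨hy, by linarith⟩, fun e => p1.1 ⟨hy, by linarith⟩⟩
    · exact (mP.elim (fun e => disjoint_left.1 n1.2 ⟨a1, e⟩ a2.1)
        fun e => disjoint_left.1 p1.2 ⟨a1, e⟩ a2.1).elim
  have hnb : ∀ x ∈ c, σ 1 x → σ (-1) x → False := by
    intro x hx h1 h2
    obtain ⟨y, ⟨a1, a2⟩, a3⟩ := near h.subP clP x hx _ (h1.and h2)
    rcases lt_or_gt_of_ne fun e => a3.2 (a1.1.2 e) with e | e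
    · exact a3.2 (h.mem a3.1 (a1.2.2 (by linarith)))
    · exact a3.2 (h.mem a3.1 (a2.2.2 (by linarith)))
  obtain ⟨s, hs, hσ⟩ : ∃ s : ℝ, s * s = 1 ∧ ∀ x ∈ c, σ s x := by
    have hlc : Lev33.LCo c (σ 1) := by
      intro x hx
      rcases hor x hx with h1 | h1
      · filter_upwards [(eventually_eventually_nhdsWithin.2 h1).filter_mono
          (nhdsWithin_mono x hcD)] with y hy
        exact propext ⟨fun _ => h1, fun _ => hy⟩
      · filter_upwards [(eventually_eventually_nhdsWithin.2 h1).filter_mono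
          (nhdsWithin_mono x hcD), self_mem_nhdsWithin] with y hy hyc
        exact propext ⟨fun h2 => (hnb y hyc h2 hy).elim, fun h2 => (hnb x hx h2 h1).elim⟩
    by_cases h1 : ∀ x ∈ c, σ 1 x
    · exact ⟨1, by norm_num, h1⟩
    · push Not at h1
      obtain ⟨x, hx, h1⟩ := h1
      exact ⟨-1, by norm_num, fun y hy => (hor y hy).resolve_left fun h2 =>
        h1 (hlc.eq hc hy hx ▸ h2)⟩
  have habs : ∀ u : ℝ, |s * u| = |u| := by
    intro u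
    have : |s| = 1 := by
      have h1 : |s| * |s| = 1 := by rw [← abs_mul, hs, abs_one]
      nlinarith [abs_nonneg s]
    rw [abs_mul, this, one_mul]
  -- an open set on which everything holds
  obtain ⟨N₀, hN₀, hcN₀, hKN₀, hσN₀⟩ : ∃ N₀, IsOpen N₀ ∧ c ⊆ N₀ ∧ N₀ ∩ W ⊆ K ∧ ∀ y ∈ N₀ ∩ D,
      (y ∈ c ↔ m y = 0) ∧ (0 < s * m y → y ∈ P) ∧ (s * m y < 0 → y ∈ Q) := by
    choose! A hA hxA hAs using fun x hx => mem_nhdsWithin.1 (hKn x hx)
    choose! B hB hxB hBs using fun x hx => mem_nhdsWithin.1 (hσ x hx)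
    refine ⟨⋃ x ∈ c, A x ∩ B x, isOpen_biUnion fun x hx => (hA x hx).inter (hB x hx),
      fun x hx => mem_biUnion hx ⟨hxA x hx, hxB x hx⟩, ?_, ?_⟩
    · rintro y ⟨hy, hW⟩
      obtain ⟨x, hx, hyx⟩ := mem_iUnion₂.1 hy
      exact hAs x hx ⟨hyx.1, hW⟩
    · rintro y ⟨hy, hW⟩
      obtain ⟨x, hx, hyx⟩ := mem_iUnion₂.1 hy
      exact hBs x hx ⟨hyx.2, hW⟩
  have hcc : IsClosed c := h.it ▸ h.clP.inter h.clQ
  obtain ⟨N₁, hN₁, hcN₁, hcl⟩ := normal_exists_closure_subset hcc hN₀ hcN₀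
  obtain ⟨κ, hκ, hκ0⟩ : ∃ κ, (∀ y ∈ D ∩ closure N₁, |m y| ≤ κ → y ∈ N₁ ∩ W) ∧ κ ∈ Ioi (0 : ℝ) :=
    ((shrink (W := W) (hD.inter_right isClosed_closure) (inter_subset_left.trans hDW)
      (φ := fun y => |m y|) (hm.mono fun y hy => hKN₀ ⟨hcl hy.2, hDW hy.1⟩).abs ⟨N₁, hN₁, rfl⟩
      fun y hy h1 => ⟨hcN₁ ((hσN₀ y ⟨hcl hy.2, hy.1⟩).1.2 (abs_nonpos_iff.1 h1)), hDW hy.1⟩).and
      self_mem_nhdsWithin).exists
  have hκ0 : 0 < κ := hκ0
  let g : E → ℝ := fun y => if y ∈ closure N₁ then max (-κ) (min (s * m y) κ) else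
    if y ∈ P then κ else -κ
  have gP : ∀ y ∈ P \ N₁, g y = κ := by
    intro y hy
    by_cases h1 : y ∈ closure N₁
    · have a := hσN₀ y ⟨hcl h1, h.subP hy.1⟩
      have b : κ < |s * m y| := by
        rw [habs]; exact not_le.1 fun e => hy.2 (hκ y ⟨h.subP hy.1, h1⟩ e).1
      have d : ¬ s * m y < 0 := fun e => hy.2 (hcN₁ (h.mem hy.1 (a.2.2 e)))
      rw [abs_of_nonneg (not_lt.1 d)] at b
      simp only [g, h1, if_true]
      rw [min_eq_right b.le, max_eq_right (by linarith)]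
    · simp [g, h1, hy.1]
  have gQ : ∀ y ∈ Q \ N₁, g y = -κ := by
    intro y hy
    by_cases h1 : y ∈ closure N₁
    · have a := hσN₀ y ⟨hcl h1, h.subQ hy.1⟩
      have b : κ < |s * m y| := by
        rw [habs]; exact not_le.1 fun e => hy.2 (hκ y ⟨h.subQ hy.1, h1⟩ e).1
      have d : ¬ 0 < s * m y := fun e => hy.2 (hcN₁ (h.mem (a.2.1 e) hy.1))
      rw [abs_of_nonpos (not_lt.1 d)] at b
      simp only [g, h1, if_true]
      rw [min_eq_left (by linarith), max_eq_left (by linarith)]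
    · have : y ∉ P := fun e => hy.2 (hcN₁ (h.mem e hy.1))
      simp [g, h1, this]
  have cl1 : IsClosed (K ∩ closure N₁) := hK.isClosed.inter isClosed_closure
  have cl2 : IsClosed (P \ N₁) := h.clP.sdiff hN₁
  have cl3 : IsClosed (Q \ N₁) := h.clQ.sdiff hN₁
  have hg : ContinuousOn g ((K ∩ closure N₁) ∪ ((P \ N₁) ∪ (Q \ N₁))) := by
    refine ContinuousOn.union_of_isClosed ?_ (ContinuousOn.union_of_isClosed
      (continuousOn_const.congr gP) (continuousOn_const.congr gQ) cl2 cl3) cl1 (cl2.union cl3)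
    refine ContinuousOn.congr (f := fun y => max (-κ) (min (s * m y) κ)) ?_ fun y hy => by
      simp [g, hy.2]
    exact continuousOn_const.sup ((continuousOn_const.mul (hm.mono inter_subset_left)).inf
      continuousOn_const)
  obtain ⟨μ, hμ⟩ := ContinuousMap.exists_restrict_eq (cl1.union (cl2.union cl3))
    ⟨_, continuousOn_iff_continuous_domRestrict.1 hg⟩
  have hμg : ∀ y ∈ (K ∩ closure N₁) ∪ ((P \ N₁) ∪ (Q \ N₁)), μ y = g y := fun y hy =>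
    congrArg (fun f : C(_, ℝ) => f ⟨y, hy⟩) hμ
  have hNK : N₁ ∩ W ⊆ K := fun y hy => hKN₀ ⟨hcl (subset_closure hy.1), hy.2⟩
  have hin : ∀ y ∈ N₁ ∩ W, μ y = max (-κ) (min (s * m y) κ) := fun y hy => by
    rw [hμg y (Or.inl ⟨hNK hy, subset_closure hy.1⟩)]; simp [g, subset_closure hy.1]
  have sgn : ∀ y ∈ D, (y ∈ P → 0 ≤ μ y) ∧ (y ∈ Q → μ y ≤ 0) ∧ (μ y = 0 → y ∈ c) := by
    intro y hy
    by_cases h1 : y ∈ N₁
    · have a := hσN₀ y ⟨hcl (subset_closure h1), hy⟩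
      rw [hin y ⟨h1, hDW hy⟩]
      rcases lt_trichotomy (s * m y) 0 with e | e | e
      · have v : max (-κ) (min (s * m y) κ) < 0 := max_lt (by linarith) (min_lt_of_left_lt e)
        refine ⟨fun b => ?_, fun _ => v.le, fun b => absurd b v.ne⟩
        have := a.1.1 (h.mem b (a.2.2 e)); rw [this] at e; simp at e
      · have : m y = 0 := by rw [← abs_eq_zero, ← habs, e, abs_zero]
        rw [e, min_eq_left hκ0.le, max_eq_right (by linarith)]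
        exact ⟨fun _ => le_rfl, fun _ => le_rfl, fun _ => a.1.2 this⟩
      · have v : 0 < max (-κ) (min (s * m y) κ) := lt_max_of_lt_right (lt_min e hκ0)
        refine ⟨fun _ => v.le, fun b => ?_, fun b => absurd b v.ne'⟩
        have := a.1.1 (h.mem (a.2.1 e) b); rw [this] at e; simp at e
    · rcases h.or hy with b | b
      · rw [hμg y (Or.inr (Or.inl ⟨b, h1⟩)), gP y ⟨b, h1⟩]
        exact ⟨fun _ => hκ0.le, fun d => (h1 (hcN₁ (h.mem b d))).elim, fun d => absurd d hκ0.ne'⟩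
      · rw [hμg y (Or.inr (Or.inr ⟨b, h1⟩)), gQ y ⟨b, h1⟩]
        exact ⟨fun d => (h1 (hcN₁ (h.mem d b))).elim, fun _ => by linarith, fun d => by linarith⟩
  refine ⟨s, {y | y ∈ N₁ ∩ W ∧ m y ∈ Ioo (-κ) κ}, μ, hs,
    ROpen.sep ⟨N₁, hN₁, rfl⟩ (hm.mono hNK) isOpen_Ioo, fun x hx => ?_, μ.continuous,
    fun x hx => ?_, ?_, ?_⟩
  · refine ⟨⟨hcN₁ hx, hDW (hcD hx)⟩, ?_⟩
    rw [(hσN₀ x ⟨hcN₀ hx, hcD hx⟩).1.1 hx]; exact ⟨by linarith, hκ0⟩
  · have a : |s * m x| < κ := by rw [habs]; exact abs_lt.2 hx.2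
    rw [hin x hx.1, min_eq_left (abs_lt.1 a).2.le, max_eq_right (abs_lt.1 a).1.le]
  · ext y
    refine ⟨fun a => ⟨h.subP a, (sgn y (h.subP a)).1 a⟩, fun a => ?_⟩
    rcases h.or a.1 with b | b
    · exact b
    · exact h.cP ((sgn y a.1).2.2 (le_antisymm ((sgn y a.1).2.1 b) a.2))
  · ext y
    refine ⟨fun a => ⟨h.subQ a, (sgn y (h.subQ a)).2.1 a⟩, fun a => ?_⟩
    rcases h.or a.1 with b | b
    · exact h.cQ ((sgn y a.1).2.2 (le_antisymm a.2 ((sgn y a.1).1 b)))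
    · exact b

end Crest.Agent.X212.Dsc4
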